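/-
R302 / TOP (owner helper7).  The interface between the top level and the core of paper Q.

`top_Core ε R` = Q Prop "expected" (P8.2) in a standard-like representation: `M` acts on `H` with a cyclic and separating UNIT vector `Ω`
whose vector state is `A`-central.  To be PROVED by the TR package for `R = ⌈4e8 / ε^2⌉` (theorem name expected: `tr_core`).
`q` is a spectral projection of `z = pinch p x - a`, so it commutes with `z` and with the `p i`: this is what makes S0557 a corollary.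

TOP then proves  (Top/SoPaving.lean, Top/ApproxPaving.lean, Top/Final.lean):
   S0556  from  top_Core ε ⌈4e8/ε^2⌉ + nc_decomp + nc_ncq + nc_abs_cont + top_transport,
   S0557  from  top_Core (ε/4) ⌈4e8/(ε/4)^2⌉ + nc_decomp + nc_ncp + nc_abs_cont + top_transport.
-/
import Claimed.Agent.R302.NC.Defs

set_option autoImplicit false

open scoped InnerProductSpace ComplexOrder

-- with `ComplexOrder` in scope this instance hijacks `Inner ℂ H`
attribute [-instance] WithCStarModule.instCStarModuleComplex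

namespace Claimed.Agent.R302

universe u

/-- Core(ε,R). -/
def top_Core (ε : ℝ) (R : ℕ) : Prop :=
  ∀ (H : Type u) [NormedAddCommGroup H] [InnerProductSpace ℂ H] [CompleteSpace H]
    (M : VonNeumannAlgebra H) (A : StarSubalgebra ℂ (H →L[ℂ] H)) (Ω : H),
    nc_Masa M A → ‖Ω‖ = 1 → Dense {v : H | ∃ x ∈ M, x Ω = v} → (∀ x ∈ M, x Ω = 0 → x = 0) →
    (∀ a ∈ A, ∀ x ∈ M, ⟪Ω, (a * x) Ω⟫_ℂ = ⟪Ω, (x * a) Ω⟫_ℂ) →
    ∀ x ∈ M, IsSelfAdjoint x → ‖x‖ ≤ 1 → ∀ ρ : ℝ, 0 < ρ →
      ∃ p : Fin R → (H →L[ℂ] H), nc_IsPart A 1 p ∧ ∃ a ∈ A, IsSelfAdjoint a ∧ ‖a‖ ≤ 1 ∧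
        ∃ q ∈ M, IsStarProjection q ∧ (∀ i, Commute q (p i)) ∧ Commute q (nc_pinch p x - a) ∧
          ‖(1 - q) Ω‖ ^ 2 < ρ ∧ ‖(nc_pinch p x - a) * q‖ ≤ ε

end Claimed.Agent.R302
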