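/-
R302 / TOP / TRANSPORT, definitions (owner helper283).
`top_Cor M e`   : the corner `e M e` as a set of operators on `H`;
`top_IsRep N e π`: the plain function `π : B(H) → B(H₁)` restricted to `N` is a *-representation with `π e = 1`;
`top_Inter N π` : the bounded intertwiners `c : H → H₁`, `c x = π(x) c` (`x ∈ N`).
-/
import Claimed.Agent.R302.NC.Defs

set_option autoImplicit false

open scoped InnerProductSpace ComplexOrder

-- with `ComplexOrder` in scope this instance hijacks `Inner ℂ H`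
attribute [-instance] WithCStarModule.instCStarModuleComplex

namespace Claimed.Agent.R302

variable {H : Type*} [NormedAddCommGroup H] [InnerProductSpace ℂ H] [CompleteSpace H]
variable {H₁ : Type*} [NormedAddCommGroup H₁] [InnerProductSpace ℂ H₁] [CompleteSpace H₁]

/-- the corner `e M e`. -/
def top_Cor (M : VonNeumannAlgebra H) (e : H →L[ℂ] H) : Set (H →L[ℂ] H) :=
  {x | x ∈ M ∧ e * x = x ∧ x * e = x}

theorem top_cor_add {M : VonNeumannAlgebra H} {e x y : H →L[ℂ] H} (hx : x ∈ top_Cor M e)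
    (hy : y ∈ top_Cor M e) : x + y ∈ top_Cor M e :=
  ⟨add_mem hx.1 hy.1, by rw [mul_add, hx.2.1, hy.2.1], by rw [add_mul, hx.2.2, hy.2.2]⟩

theorem top_cor_smul {M : VonNeumannAlgebra H} {e x : H →L[ℂ] H} (c : ℂ) (hx : x ∈ top_Cor M e) :
    c • x ∈ top_Cor M e :=
  ⟨M.toStarSubalgebra.smul_mem hx.1 c, by rw [mul_smul_comm, hx.2.1], by rw [smul_mul_assoc, hx.2.2]⟩

theorem top_cor_zero {M : VonNeumannAlgebra H} {e : H →L[ℂ] H} : (0 : H →L[ℂ] H) ∈ top_Cor M e :=
  ⟨zero_mem _, by simp, by simp⟩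

theorem top_cor_neg {M : VonNeumannAlgebra H} {e x : H →L[ℂ] H} (hx : x ∈ top_Cor M e) :
    -x ∈ top_Cor M e := by
  simpa using top_cor_smul (-1) hx

theorem top_cor_sub {M : VonNeumannAlgebra H} {e x y : H →L[ℂ] H} (hx : x ∈ top_Cor M e)
    (hy : y ∈ top_Cor M e) : x - y ∈ top_Cor M e := by
  rw [sub_eq_add_neg]
  exact top_cor_add hx (top_cor_neg hy)

theorem top_cor_mul {M : VonNeumannAlgebra H} {e x y : H →L[ℂ] H} (hx : x ∈ top_Cor M e)
    (hy : y ∈ top_Cor M e) : x * y ∈ top_Cor M e :=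
  ⟨mul_mem hx.1 hy.1, by rw [← mul_assoc, hx.2.1], by rw [mul_assoc, hy.2.2]⟩

theorem top_cor_star {M : VonNeumannAlgebra H} {e x : H →L[ℂ] H} (he : IsStarProjection e)
    (hx : x ∈ top_Cor M e) : star x ∈ top_Cor M e := by
  refine ⟨star_mem hx.1, ?_, ?_⟩
  · conv_rhs => rw [← hx.2.2]
    rw [star_mul, he.isSelfAdjoint.star_eq]
  · conv_rhs => rw [← hx.2.1]
    rw [star_mul, he.isSelfAdjoint.star_eq]

theorem top_cor_self {M : VonNeumannAlgebra H} {e : H →L[ℂ] H} (heM : e ∈ M)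
    (he : IsStarProjection e) : e ∈ top_Cor M e :=
  ⟨heM, he.isIdempotentElem.eq, he.isIdempotentElem.eq⟩

theorem top_cor_compress {M : VonNeumannAlgebra H} {e : H →L[ℂ] H} (heM : e ∈ M)
    (he : IsStarProjection e) {x : H →L[ℂ] H} (hx : x ∈ M) : e * x * e ∈ top_Cor M e :=
  ⟨mul_mem (mul_mem heM hx) heM, by rw [← mul_assoc, ← mul_assoc, he.isIdempotentElem.eq],
    by rw [mul_assoc, he.isIdempotentElem.eq]⟩

theorem top_cor_sum {M : VonNeumannAlgebra H} {e : H →L[ℂ] H} {κ : Type*} (s : Finset κ)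
    (x : κ → H →L[ℂ] H) (hx : ∀ k ∈ s, x k ∈ top_Cor M e) : ∑ k ∈ s, x k ∈ top_Cor M e := by
  classical
  induction s using Finset.induction_on with
  | empty => simpa using top_cor_zero
  | insert a s ha ih =>
    rw [Finset.sum_insert ha]
    exact top_cor_add (hx a (Finset.mem_insert_self a s))
      (ih fun k hk => hx k (Finset.mem_insert_of_mem hk))

/-- `π` restricted to `N` is a *-representation with `π e = 1`. -/
structure top_IsRep (N : Set (H →L[ℂ] H)) (e : H →L[ℂ] H)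
    (π : (H →L[ℂ] H) → (H₁ →L[ℂ] H₁)) : Prop where
  add : ∀ x ∈ N, ∀ y ∈ N, π (x + y) = π x + π y
  smul : ∀ (c : ℂ), ∀ x ∈ N, π (c • x) = c • π x
  mul : ∀ x ∈ N, ∀ y ∈ N, π (x * y) = π x * π y
  star : ∀ x ∈ N, π (star x) = star (π x)
  one : π e = 1

theorem top_IsRep.zero {M : VonNeumannAlgebra H} {e : H →L[ℂ] H}
    {π : (H →L[ℂ] H) → (H₁ →L[ℂ] H₁)} (hπ : top_IsRep (top_Cor M e) e π) : π 0 = 0 := by
  have := hπ.smul 0 0 top_cor_zero
  simpa using this

theorem top_IsRep.sub {M : VonNeumannAlgebra H} {e : H →L[ℂ] H}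
    {π : (H →L[ℂ] H) → (H₁ →L[ℂ] H₁)} (hπ : top_IsRep (top_Cor M e) e π) {x y : H →L[ℂ] H}
    (hx : x ∈ top_Cor M e) (hy : y ∈ top_Cor M e) : π (x - y) = π x - π y := by
  have h1 := hπ.smul (-1) y hy
  have h2 := hπ.add x hx _ (top_cor_smul (-1) hy)
  rw [h1] at h2
  simpa [sub_eq_add_neg] using h2

theorem top_IsRep.sum {M : VonNeumannAlgebra H} {e : H →L[ℂ] H}
    {π : (H →L[ℂ] H) → (H₁ →L[ℂ] H₁)} (hπ : top_IsRep (top_Cor M e) e π) {κ : Type*}
    (s : Finset κ) (x : κ → H →L[ℂ] H) (hx : ∀ k ∈ s, x k ∈ top_Cor M e) :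
    π (∑ k ∈ s, x k) = ∑ k ∈ s, π (x k) := by
  classical
  induction s using Finset.induction_on with
  | empty => simpa using hπ.zero
  | insert a s ha ih =>
    rw [Finset.sum_insert ha, Finset.sum_insert ha,
      hπ.add _ (hx a (Finset.mem_insert_self a s)) _
        (top_cor_sum s x fun k hk => hx k (Finset.mem_insert_of_mem hk)),
      ih fun k hk => hx k (Finset.mem_insert_of_mem hk)]

/-- the bounded intertwiners between the identity representation of `N` on `H` and `π`. -/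
def top_Inter (N : Set (H →L[ℂ] H)) (π : (H →L[ℂ] H) → (H₁ →L[ℂ] H₁)) : Set (H →L[ℂ] H₁) :=
  {c | ∀ x ∈ N, c ∘L x = π x ∘L c}

/-- "enough intertwiners": the ranges of the intertwiners span a dense subspace of `H₁`. -/
def top_Enough (N : Set (H →L[ℂ] H)) (π : (H →L[ℂ] H) → (H₁ →L[ℂ] H₁)) : Prop :=
  ∀ v : H₁, (∀ c ∈ top_Inter N π, ∀ ξ : H, ⟪c ξ, v⟫_ℂ = 0) → v = 0

end Claimed.Agent.R302
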