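/-
R302 / TOP / TRANSPORT, the "enough intertwiners" theorem (owner helper283).
If `π` is a *-representation of the corner `N = e M e` on `H₁` (`π e = 1`) and the ranges of the bounded intertwiners
`c : H → H₁` (`c x = π(x) c`) span a dense subspace, then `π(N)` equals its bicommutant.
Proof.  For `u` in the bicommutant with `u* u = 1` put `T (c* ζ) := c* (u ζ)`.  The Gram matrices of the two families agree since
`d c*` commutes with `π(N)`, so `T` is a well defined bounded operator (`0` on the orthogonal complement).  `T` commutes with the commutant of `M`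
since `c a'` is again an intertwiner, `e T = T = T e`, and `c* π(T) = T c* = c* u` for every `c`, so `π(T) = u`.
A general element of the bicommutant is a combination of four unitaries of this C*-algebra.
-/
import Claimed.Agent.R302.Top.TransportDefs
import Claimed.Agent.R302.VN.Factor
import Claimed.Agent.R302.VN.Wot

set_option autoImplicit false

open scoped InnerProductSpace ComplexOrder

-- with `ComplexOrder` in scope this instance hijacks `Inner ℂ H`
attribute [-instance] WithCStarModule.instCStarModuleComplex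

namespace Claimed.Agent.R302

variable {H : Type*} [NormedAddCommGroup H] [InnerProductSpace ℂ H] [CompleteSpace H]
variable {H₁ : Type*} [NormedAddCommGroup H₁] [InnerProductSpace ℂ H₁] [CompleteSpace H₁]

open ContinuousLinearMap in
/-- adjoint form of the intertwining relation. -/
theorem top_inter_adjoint {M : VonNeumannAlgebra H} {e : H →L[ℂ] H} (he : IsStarProjection e)
    {π : (H →L[ℂ] H) → (H₁ →L[ℂ] H₁)} (hπ : top_IsRep (top_Cor M e) e π)
    {c : H →L[ℂ] H₁} (hc : c ∈ top_Inter (top_Cor M e) π) {x : H →L[ℂ] H}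
    (hx : x ∈ top_Cor M e) : x ∘L adjoint c = adjoint c ∘L π x := by
  have h1 := hc (star x) (top_cor_star he hx)
  rw [hπ.star x hx] at h1
  have h2 := congrArg adjoint h1
  rw [adjoint_comp, adjoint_comp, star_eq_adjoint, star_eq_adjoint, adjoint_adjoint,
    adjoint_adjoint] at h2
  exact h2

open ContinuousLinearMap in
theorem top_inter_comp_adjoint {M : VonNeumannAlgebra H} {e : H →L[ℂ] H} (he : IsStarProjection e)
    {π : (H →L[ℂ] H) → (H₁ →L[ℂ] H₁)} (hπ : top_IsRep (top_Cor M e) e π)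
    {c d : H →L[ℂ] H₁} (hc : c ∈ top_Inter (top_Cor M e) π) (hd : d ∈ top_Inter (top_Cor M e) π)
    {x : H →L[ℂ] H} (hx : x ∈ top_Cor M e) :
    (d ∘L adjoint c) * π x = π x * (d ∘L adjoint c) := by
  have h1 := top_inter_adjoint he hπ hc hx
  have h2 := hd x hx
  calc (d ∘L adjoint c) * π x = d ∘L (adjoint c ∘L π x) := rfl
    _ = d ∘L (x ∘L adjoint c) := by rw [h1]
    _ = (d ∘L x) ∘L adjoint c := rfl
    _ = (π x ∘L d) ∘L adjoint c := by rw [h2]
    _ = π x * (d ∘L adjoint c) := rfl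

omit [CompleteSpace H₁] in
theorem top_inter_comp_commutant {M : VonNeumannAlgebra H} {e : H →L[ℂ] H}
    {π : (H →L[ℂ] H) → (H₁ →L[ℂ] H₁)}
    {c : H →L[ℂ] H₁} (hc : c ∈ top_Inter (top_Cor M e) π) {a : H →L[ℂ] H}
    (ha : a ∈ M.commutant) : c ∘L a ∈ top_Inter (top_Cor M e) π := by
  intro x hx
  have h1 : x * a = a * x := (VonNeumannAlgebra.mem_commutant_iff.1 ha) x hx.1
  calc (c ∘L a) ∘L x = c ∘L (a * x) := rfl
    _ = c ∘L (x * a) := by rw [h1]
    _ = (c ∘L x) ∘L a := rfl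
    _ = (π x ∘L c) ∘L a := by rw [hc x hx]
    _ = π x ∘L (c ∘L a) := rfl

open ContinuousLinearMap in
/-- the isometric case. -/
theorem top_rep_bicommutant_unitary (M : VonNeumannAlgebra H) (e : H →L[ℂ] H) (heM : e ∈ M)
    (he : IsStarProjection e) (π : (H →L[ℂ] H) → (H₁ →L[ℂ] H₁))
    (hπ : top_IsRep (top_Cor M e) e π) (hEI : top_Enough (top_Cor M e) π)
    (u : H₁ →L[ℂ] H₁) (hu : star u * u = 1)
    (hy : ∀ z : H₁ →L[ℂ] H₁, (∀ x ∈ top_Cor M e, z * π x = π x * z) → u * z = z * u) :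
    ∃ x ∈ top_Cor M e, π x = u := by
  set N := top_Cor M e with hN
  let ι := {c : H →L[ℂ] H₁ // c ∈ top_Inter N π} × H₁
  let a : ι → H := fun p => adjoint p.1.1 p.2
  let b : ι → H := fun p => adjoint p.1.1 (u p.2)
  have huu : ∀ v w : H₁, ⟪u v, u w⟫_ℂ = ⟪v, w⟫_ℂ := by
    intro v w
    have : ⟪u v, u w⟫_ℂ = ⟪v, (star u * u) w⟫_ℂ := by
      rw [star_eq_adjoint, mul_apply_eq_comp, adjoint_inner_right]
    rw [this, hu, one_apply_eq_self]
  have hgram : ∀ i j, ⟪b i, b j⟫_ℂ = ⟪a i, a j⟫_ℂ := by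
    rintro ⟨⟨c, hc⟩, ζ⟩ ⟨⟨d, hd⟩, ζ'⟩
    have h1 : u * (d ∘L adjoint c) = (d ∘L adjoint c) * u :=
      hy _ fun x hx => top_inter_comp_adjoint he hπ hc hd hx
    have h2 : d (adjoint c (u ζ)) = u (d (adjoint c ζ)) := by
      have := congrArg (fun T : H₁ →L[ℂ] H₁ => T ζ) h1
      simpa using this.symm
    change ⟪adjoint c (u ζ), adjoint d (u ζ')⟫_ℂ = ⟪adjoint c ζ, adjoint d ζ'⟫_ℂ
    rw [adjoint_inner_right, adjoint_inner_right, h2, huu]
  obtain ⟨T, hT, hT0⟩ := vn_exists_of_gram a b hgram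
  have hT' : ∀ c ∈ top_Inter N π, ∀ ζ, T (adjoint c ζ) = adjoint c (u ζ) :=
    fun c hc ζ => hT (⟨c, hc⟩, ζ)
  have hT0' : ∀ v, (∀ c ∈ top_Inter N π, ∀ ζ, ⟪adjoint c ζ, v⟫_ℂ = 0) → T v = 0 :=
    fun v hv => hT0 v fun p => hv p.1.1 p.1.2 p.2
  let s : Set H := {v | ∃ c ∈ top_Inter N π, ∃ ζ, adjoint c ζ = v}
  have hs0 : ∀ v, (∀ w ∈ s, ⟪w, v⟫_ℂ = 0) → T v = 0 :=
    fun v hv => hT0' v fun c hc ζ => hv _ ⟨c, hc, ζ, rfl⟩
  have heN : e ∈ N := top_cor_self heM he
  have hce : ∀ c ∈ top_Inter N π, e ∘L adjoint c = adjoint c := by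
    intro c hc
    have := top_inter_adjoint he hπ hc heN
    rw [this, hπ.one]
    rfl
  -- `T ∈ M`
  have hTM : T ∈ M := by
    rw [vn_mem_iff_commute]
    intro a' ha'
    have ha's : star a' ∈ M.commutant := star_mem ha'
    refine vn_ext_of_orthogonal (a' * T) (T * a') s ?_ ?_
    · rintro _ ⟨c, hc, ζ, rfl⟩
      have hc' : c ∘L star a' ∈ top_Inter N π := top_inter_comp_commutant hc ha's
      have h1 : ∀ ζ, adjoint (c ∘L star a') ζ = a' (adjoint c ζ) := by
        intro ζ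
        rw [adjoint_comp, star_eq_adjoint, adjoint_adjoint]
        rfl
      rw [mul_apply_eq_comp, mul_apply_eq_comp, hT' c hc, ← h1, ← h1, hT' _ hc']
    · intro v hv
      rw [mul_apply_eq_comp, mul_apply_eq_comp, hs0 v hv, map_zero]
      symm
      refine hs0 _ ?_
      rintro _ ⟨c, hc, ζ, rfl⟩
      have hc' : c ∘L a' ∈ top_Inter N π := top_inter_comp_commutant hc ha'
      have h1 : ⟪adjoint c ζ, a' v⟫_ℂ = ⟪adjoint (c ∘L a') ζ, v⟫_ℂ := by
        rw [adjoint_inner_left, adjoint_inner_left]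
        rfl
      rw [h1]
      exact hv _ ⟨_, hc', ζ, rfl⟩
  have heT : e * T = T := by
    refine vn_ext_of_orthogonal (e * T) T s ?_ ?_
    · rintro _ ⟨c, hc, ζ, rfl⟩
      rw [mul_apply_eq_comp, hT' c hc]
      exact congrArg (fun S : H₁ →L[ℂ] H => S (u ζ)) (hce c hc)
    · intro v hv
      rw [mul_apply_eq_comp, hs0 v hv, map_zero]
  have hTe : T * e = T := by
    refine vn_ext_of_orthogonal (T * e) T s ?_ ?_
    · rintro _ ⟨c, hc, ζ, rfl⟩
      rw [mul_apply_eq_comp]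
      exact congrArg T (congrArg (fun S : H₁ →L[ℂ] H => S ζ) (hce c hc))
    · intro v hv
      rw [mul_apply_eq_comp, hs0 v hv]
      refine hs0 _ ?_
      rintro _ ⟨c, hc, ζ, rfl⟩
      have h1 : ⟪adjoint c ζ, e v⟫_ℂ = ⟪(e ∘L adjoint c) ζ, v⟫_ℂ := by
        rw [comp_apply, ← adjoint_inner_right e, ← star_eq_adjoint, he.isSelfAdjoint.star_eq]
      rw [h1, hce c hc]
      exact hv _ ⟨c, hc, ζ, rfl⟩
  have hTN : T ∈ N := ⟨hTM, heT, hTe⟩
  refine ⟨T, hTN, ?_⟩
  ext ζ
  rw [← sub_eq_zero]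
  refine hEI _ fun c hc ξ => ?_
  have h1 := top_inter_adjoint he hπ hc hTN
  have h2 : adjoint c (π T ζ) = adjoint c (u ζ) := by
    have := congrArg (fun S : H₁ →L[ℂ] H => S ζ) h1
    simp only [comp_apply] at this
    rw [← this, hT' c hc]
  rw [← adjoint_inner_right, map_sub, h2, sub_self, inner_zero_right]

/-- **Enough intertwiners imply that `π(e M e)` is its own bicommutant.** -/
theorem top_rep_bicommutant (M : VonNeumannAlgebra H) (e : H →L[ℂ] H) (heM : e ∈ M)
    (he : IsStarProjection e) (π : (H →L[ℂ] H) → (H₁ →L[ℂ] H₁))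
    (hπ : top_IsRep (top_Cor M e) e π) (hEI : top_Enough (top_Cor M e) π)
    (y : H₁ →L[ℂ] H₁)
    (hy : ∀ z : H₁ →L[ℂ] H₁, (∀ x ∈ top_Cor M e, z * π x = π x * z) → y * z = z * y) :
    ∃ x ∈ top_Cor M e, π x = y := by
  let C₁ : Set (H₁ →L[ℂ] H₁) := {z | ∀ x ∈ top_Cor M e, z * π x = π x * z}
  have hC₁star : ∀ z ∈ C₁, star z ∈ C₁ := by
    intro z hz x hx
    have h1 := hz (star x) (top_cor_star he hx)
    rw [hπ.star x hx] at h1
    have h2 := congrArg star h1
    simpa [star_mul] using h2.symm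
  let S : StarSubalgebra ℂ (H₁ →L[ℂ] H₁) := StarSubalgebra.centralizer ℂ C₁
  have hSc : IsClosed (S : Set (H₁ →L[ℂ] H₁)) := by
    rw [StarSubalgebra.coe_centralizer]
    exact Set.isClosed_centralizer _
  have hyS : y ∈ S := by
    rw [StarSubalgebra.mem_centralizer_iff]
    intro z hz
    exact ⟨(hy z hz).symm, (hy _ (hC₁star z hz)).symm⟩
  obtain ⟨u, c, hsum, -⟩ := CStarAlgebra.exists_sum_four_unitary (⟨y, hyS⟩ : S)
  have hu : ∀ i, ∃ x ∈ top_Cor M e, π x = ((u i : S) : H₁ →L[ℂ] H₁) := by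
    intro i
    refine top_rep_bicommutant_unitary M e heM he π hπ hEI _ ?_ ?_
    · exact congrArg (Subtype.val) (Unitary.coe_star_mul_self (u i))
    · intro z hz
      have := (StarSubalgebra.mem_centralizer_iff ℂ).1 (u i : S).2 z hz
      exact this.1.symm
  choose x hxN hx using hu
  refine ⟨∑ i, c i • x i, top_cor_sum _ _ fun i _ => top_cor_smul _ (hxN i), ?_⟩
  rw [hπ.sum _ _ fun i _ => top_cor_smul _ (hxN i)]
  have h1 := congrArg (Subtype.val) hsum
  simp only [AddSubmonoidClass.coe_finsetSum] at h1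
  rw [h1]
  refine Finset.sum_congr rfl fun i _ => ?_
  rw [hπ.smul _ _ (hxN i), hx i]
  rfl

end Claimed.Agent.R302
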