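/-
R302 / TOP / TRANSPORT: an injective representation of the corner is isometric (owner helper283).
-/
import Claimed.Agent.R302.Top.TransportDefs

set_option autoImplicit false

open scoped InnerProductSpace ComplexOrder

-- with `ComplexOrder` in scope this instance hijacks `Inner ℂ H`
attribute [-instance] WithCStarModule.instCStarModuleComplex

namespace Claimed.Agent.R302

variable {H : Type*} [NormedAddCommGroup H] [InnerProductSpace ℂ H] [CompleteSpace H]
variable {H₁ : Type*} [NormedAddCommGroup H₁] [InnerProductSpace ℂ H₁] [CompleteSpace H₁]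

/-- the corner as a non-unital star subalgebra of `B(H)`. -/
def top_CorAlg (M : VonNeumannAlgebra H) (e : H →L[ℂ] H) (he : IsStarProjection e) :
    NonUnitalStarSubalgebra ℂ (H →L[ℂ] H) where
  carrier := top_Cor M e
  add_mem' := top_cor_add
  zero_mem' := top_cor_zero
  mul_mem' := top_cor_mul
  smul_mem' := fun c _ hx => top_cor_smul c hx
  star_mem' := top_cor_star he

theorem top_isClosed_vn (M : VonNeumannAlgebra H) : IsClosed (M : Set (H →L[ℂ] H)) := by
  rw [← M.centralizer_centralizer]
  exact Set.isClosed_centralizer _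

theorem top_isClosed_cor (M : VonNeumannAlgebra H) (e : H →L[ℂ] H) : IsClosed (top_Cor M e) := by
  have h1 : IsClosed {x : H →L[ℂ] H | e * x = x} :=
    isClosed_eq (continuous_const.mul continuous_id) continuous_id
  have h2 : IsClosed {x : H →L[ℂ] H | x * e = x} :=
    isClosed_eq (continuous_id.mul continuous_const) continuous_id
  exact (top_isClosed_vn M).inter (h1.inter h2)

instance top_isClosed_corAlg (M : VonNeumannAlgebra H) (e : H →L[ℂ] H) (he : IsStarProjection e) :
    IsClosed (top_CorAlg M e he : Set (H →L[ℂ] H)) := top_isClosed_cor M e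

theorem top_rep_isometry (M : VonNeumannAlgebra H) (e : H →L[ℂ] H) (he : IsStarProjection e)
    (π : (H →L[ℂ] H) → (H₁ →L[ℂ] H₁)) (hπ : top_IsRep (top_Cor M e) e π)
    (hinj : ∀ x ∈ top_Cor M e, π x = 0 → x = 0) (x : H →L[ℂ] H) (hx : x ∈ top_Cor M e) :
    ‖π x‖ = ‖x‖ := by
  let f : top_CorAlg M e he →⋆ₙₐ[ℂ] (H₁ →L[ℂ] H₁) :=
    { toFun := fun y => π (y : H →L[ℂ] H)
      map_smul' := fun c y => hπ.smul c _ y.2
      map_zero' := hπ.zero
      map_add' := fun y y' => hπ.add _ y.2 _ y'.2
      map_mul' := fun y y' => hπ.mul _ y.2 _ y'.2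
      map_star' := fun y => hπ.star _ y.2 }
  have hf : Function.Injective f := by
    rw [injective_iff_map_eq_zero]
    intro y hy
    exact Subtype.ext (hinj _ y.2 hy)
  exact NonUnitalStarAlgHom.norm_map f hf ⟨x, hx⟩

end Claimed.Agent.R302
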