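/-
R302 / TOP / TRANSPORT, assembly (owner helper283): from a cyclic representation `(π, Ω₁)` of the corner `e M e` with
`⟪π a Ω₁, π b Ω₁⟫ = lam (a* b)` whose image is its own bicommutant to the data required by `top_transport`.
-/
import Claimed.Agent.R302.Top.TransportIso

set_option autoImplicit false

open scoped InnerProductSpace ComplexOrder

-- with `ComplexOrder` in scope this instance hijacks `Inner ℂ H`
attribute [-instance] WithCStarModule.instCStarModuleComplex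

namespace Claimed.Agent.R302

variable {H : Type*} [NormedAddCommGroup H] [InnerProductSpace ℂ H] [CompleteSpace H]
variable {H₁ : Type*} [NormedAddCommGroup H₁] [InnerProductSpace ℂ H₁] [CompleteSpace H₁]

/-- the commutant of `π(N)` as a set. -/
def top_Comm (N : Set (H →L[ℂ] H)) (π : (H →L[ℂ] H) → (H₁ →L[ℂ] H₁)) : Set (H₁ →L[ℂ] H₁) :=
  {z | ∀ x ∈ N, z * π x = π x * z}

/-- the bicommutant of `π(N)` as a von Neumann algebra. -/
noncomputable def top_Bic (N : Set (H →L[ℂ] H)) (π : (H →L[ℂ] H) → (H₁ →L[ℂ] H₁)) :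
    VonNeumannAlgebra H₁ where
  toStarSubalgebra := StarSubalgebra.centralizer ℂ (top_Comm N π)
  centralizer_centralizer' := Set.centralizer_centralizer_centralizer _

theorem top_mem_bic_iff (M : VonNeumannAlgebra H) (e : H →L[ℂ] H) (he : IsStarProjection e)
    (π : (H →L[ℂ] H) → (H₁ →L[ℂ] H₁)) (hπ : top_IsRep (top_Cor M e) e π)
    (hbic : ∀ y : H₁ →L[ℂ] H₁, (∀ z : H₁ →L[ℂ] H₁, (∀ x ∈ top_Cor M e, z * π x = π x * z) →
      y * z = z * y) → ∃ x ∈ top_Cor M e, π x = y) (y : H₁ →L[ℂ] H₁) :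
    y ∈ top_Bic (top_Cor M e) π ↔ ∃ x ∈ top_Cor M e, π x = y := by
  have h0 : y ∈ top_Bic (top_Cor M e) π ↔
      y ∈ StarSubalgebra.centralizer ℂ (top_Comm (top_Cor M e) π) := Iff.rfl
  rw [h0, StarSubalgebra.mem_centralizer_iff]
  constructor
  · intro h
    exact hbic y fun z hz => (h z hz).1.symm
  · rintro ⟨x, hx, rfl⟩ g hg
    refine ⟨hg x hx, ?_⟩
    have h1 := hg (star x) (top_cor_star he hx)
    rw [hπ.star x hx] at h1
    have h2 := congrArg star h1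
    simpa [star_mul] using h2.symm

/-- the image of `A ∩ e M e`. -/
def top_ImA (M : VonNeumannAlgebra H) (A : StarSubalgebra ℂ (H →L[ℂ] H)) (e : H →L[ℂ] H)
    (heA : e ∈ A) (heM : e ∈ M) (he : IsStarProjection e)
    (π : (H →L[ℂ] H) → (H₁ →L[ℂ] H₁)) (hπ : top_IsRep (top_Cor M e) e π) :
    StarSubalgebra ℂ (H₁ →L[ℂ] H₁) where
  carrier := {y | ∃ a ∈ A, a ∈ top_Cor M e ∧ π a = y}
  mul_mem' := by
    rintro _ _ ⟨a, ha, haN, rfl⟩ ⟨b, hb, hbN, rfl⟩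
    exact ⟨a * b, mul_mem ha hb, top_cor_mul haN hbN, hπ.mul a haN b hbN⟩
  one_mem' := ⟨e, heA, top_cor_self heM he, hπ.one⟩
  add_mem' := by
    rintro _ _ ⟨a, ha, haN, rfl⟩ ⟨b, hb, hbN, rfl⟩
    exact ⟨a + b, add_mem ha hb, top_cor_add haN hbN, hπ.add a haN b hbN⟩
  zero_mem' := ⟨0, zero_mem A, top_cor_zero, hπ.zero⟩
  algebraMap_mem' := fun r => ⟨r • e, A.smul_mem heA r, top_cor_smul r (top_cor_self heM he), by
    rw [hπ.smul r e (top_cor_self heM he), hπ.one, Algebra.algebraMap_eq_smul_one]⟩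
  star_mem' := by
    rintro _ ⟨a, ha, haN, rfl⟩
    exact ⟨star a, star_mem ha, top_cor_star he haN, hπ.star a haN⟩

theorem top_transport_core
    (M : VonNeumannAlgebra H) (A : StarSubalgebra ℂ (H →L[ℂ] H)) (hA : nc_Masa M A)
    (e : H →L[ℂ] H) (heA : e ∈ A) (he : IsStarProjection e)
    (lam : (H →L[ℂ] H) →ₚ[ℂ] ℂ)
    (hc : ∀ a ∈ A, ∀ z, lam (a * z) = lam (z * a)) (h0 : lam (1 - e) = 0)
    (hf : ∀ y ∈ M, lam (star y * y) = 0 → y * e = 0) (h1 : lam 1 ≠ 0)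
    (π : (H →L[ℂ] H) → (H₁ →L[ℂ] H₁)) (Ω₁ : H₁) (hπ : top_IsRep (top_Cor M e) e π)
    (hin : ∀ a ∈ top_Cor M e, ∀ b ∈ top_Cor M e, ⟪π a Ω₁, π b Ω₁⟫_ℂ = lam (star a * b))
    (hcyc : Dense {v : H₁ | ∃ x ∈ top_Cor M e, π x Ω₁ = v})
    (hbic : ∀ y : H₁ →L[ℂ] H₁, (∀ z : H₁ →L[ℂ] H₁, (∀ x ∈ top_Cor M e, z * π x = π x * z) →
      y * z = z * y) → ∃ x ∈ top_Cor M e, π x = y) :
    ∃ (M₁ : VonNeumannAlgebra H₁) (A₁ : StarSubalgebra ℂ (H₁ →L[ℂ] H₁)) (Ω : H₁)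
      (ψ : (H₁ →L[ℂ] H₁) → (H →L[ℂ] H)),
      nc_Masa M₁ A₁ ∧ ‖Ω‖ = 1 ∧ Dense {v : H₁ | ∃ x ∈ M₁, x Ω = v} ∧ (∀ x ∈ M₁, x Ω = 0 → x = 0) ∧
      (∀ a ∈ A₁, ∀ x ∈ M₁, ⟪Ω, (a * x) Ω⟫_ℂ = ⟪Ω, (x * a) Ω⟫_ℂ) ∧
      (∀ y ∈ M₁, ψ y ∈ M ∧ e * ψ y = ψ y ∧ ψ y * e = ψ y) ∧ (∀ y ∈ A₁, ψ y ∈ A) ∧ ψ 1 = e ∧
      (∀ y ∈ M₁, ∀ y' ∈ M₁, ψ (y + y') = ψ y + ψ y' ∧ ψ (y * y') = ψ y * ψ y') ∧
      (∀ y ∈ M₁, ψ (star y) = star (ψ y)) ∧ (∀ (c : ℂ), ∀ y ∈ M₁, ψ (c • y) = c • ψ y) ∧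
      (∀ y ∈ M₁, ‖ψ y‖ = ‖y‖) ∧ (∀ x ∈ M, ∃ x₁ ∈ M₁, ψ x₁ = e * x * e) ∧
      (∀ y ∈ M₁, lam (ψ y) = lam 1 * ⟪Ω, y Ω⟫_ℂ) := by
  classical
  have heM : e ∈ M := ((hA e).1 heA).1
  set N := top_Cor M e with hN
  have heN : e ∈ N := top_cor_self heM he
  -- separating / injective
  have hsep : ∀ x ∈ N, π x Ω₁ = 0 → x = 0 := by
    intro x hx h
    have h2 := hin x hx x hx
    rw [h, inner_zero_left] at h2
    have h3 := hf x hx.1 h2.symm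
    rw [hx.2.2] at h3
    exact h3
  have hinj0 : ∀ x ∈ N, π x = 0 → x = 0 := fun x hx h => hsep x hx (by rw [h]; rfl)
  have hinj : ∀ x ∈ N, ∀ y ∈ N, π x = π y → x = y := by
    intro x hx y hy h
    have h2 := hinj0 (x - y) (top_cor_sub hx hy) (by rw [hπ.sub hx hy, h, sub_self])
    exact sub_eq_zero.1 h2
  have hM₁ := top_mem_bic_iff M e he π hπ hbic
  set M₁ := top_Bic N π with hM₁def
  set A₁ := top_ImA M A e heA heM he π hπ with hA₁def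
  have hA₁ : ∀ y, y ∈ A₁ ↔ ∃ a ∈ A, a ∈ N ∧ π a = y := fun y => Iff.rfl
  -- the inverse map
  let ψ : (H₁ →L[ℂ] H₁) → (H →L[ℂ] H) := fun y =>
    if h : ∃ x ∈ N, π x = y then h.choose else 0
  have hψ : ∀ x ∈ N, ψ (π x) = x := by
    intro x hx
    have h : ∃ x' ∈ N, π x' = π x := ⟨x, hx, rfl⟩
    have h2 : ψ (π x) = h.choose := dif_pos h
    rw [h2]
    exact hinj _ h.choose_spec.1 _ hx h.choose_spec.2
  -- the constant
  set t : ℝ := (lam 1).re with ht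
  have hlam1 : lam 1 = (t : ℂ) := by
    have h2 : (0 : ℂ) ≤ lam 1 := map_nonneg lam zero_le_one
    have h3 := (Complex.le_def.1 h2).2
    apply Complex.ext
    · simp [ht]
    · simpa using h3.symm
  have ht0 : 0 < t := by
    have h2 : (0 : ℂ) ≤ lam 1 := map_nonneg lam zero_le_one
    have h3 : 0 ≤ t := (Complex.le_def.1 h2).1
    refine lt_of_le_of_ne h3 fun h => h1 ?_
    rw [hlam1, ← h]; rfl
  have hlame : lam e = lam 1 := by
    have : lam 1 - lam e = 0 := by rw [← map_sub]; exact h0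
    exact (sub_eq_zero.1 this).symm
  have hΩ₁form : ∀ z ∈ N, ⟪Ω₁, π z Ω₁⟫_ℂ = lam z := by
    intro z hz
    have h2 := hin e heN z hz
    rw [hπ.one, he.isSelfAdjoint.star_eq, hz.2.1] at h2
    exact h2
  have hΩ₁norm : ‖Ω₁‖ ^ 2 = t := by
    have h2 := hΩ₁form e heN
    rw [hπ.one, hlame, hlam1] at h2
    change ⟪Ω₁, Ω₁⟫_ℂ = _ at h2
    rw [inner_self_eq_norm_sq_to_K] at h2
    have h3 : ((‖Ω₁‖ ^ 2 : ℝ) : ℂ) = (t : ℂ) := by
      rw [← h2]; push_cast; rfl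
    exact Complex.ofReal_injective h3
  set s : ℝ := (Real.sqrt t)⁻¹ with hs
  have hs0 : 0 < s := by positivity
  have hs2 : s ^ 2 * t = 1 := by
    rw [hs, inv_pow, Real.sq_sqrt ht0.le]
    exact inv_mul_cancel₀ ht0.ne'
  set Ω : H₁ := (s : ℂ) • Ω₁ with hΩ
  have hΩform : ∀ z ∈ N, lam 1 * ⟪Ω, π z Ω⟫_ℂ = lam z := by
    intro z hz
    rw [hΩ, map_smul, inner_smul_left, inner_smul_right, hΩ₁form z hz, hlam1, Complex.conj_ofReal]
    have : (t : ℂ) * ((s : ℂ) * ((s : ℂ) * lam z)) = ((s ^ 2 * t : ℝ) : ℂ) * lam z := by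
      push_cast; ring
    rw [this, hs2]; simp
  refine ⟨M₁, A₁, Ω, ψ, ?_, ?_, ?_, ?_, ?_, ?_, ?_, ?_, ?_, ?_, ?_, ?_, ?_, ?_⟩
  · -- masa
    intro y
    constructor
    · rintro ⟨a, ha, haN, rfl⟩
      refine ⟨(hM₁ _).2 ⟨a, haN, rfl⟩, ?_⟩
      rintro _ ⟨b, hb, hbN, rfl⟩
      have h2 : a * b = b * a := (((hA a).1 ha).2 b hb).eq
      change π a * π b = π b * π a
      rw [← hπ.mul a haN b hbN, ← hπ.mul b hbN a haN, h2]
    · rintro ⟨hy, hcomm⟩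
      obtain ⟨x, hx, rfl⟩ := (hM₁ _).1 hy
      refine ⟨x, (hA x).2 ⟨hx.1, fun a ha => ?_⟩, hx, rfl⟩
      have haM : a ∈ M := ((hA a).1 ha).1
      have hea : e * a = a * e := (((hA e).1 heA).2 a ha).eq
      have ha'N : e * a * e ∈ N := top_cor_compress heM he haM
      have ha'A : e * a * e ∈ A := mul_mem (mul_mem heA ha) heA
      have h2 : π x * π (e * a * e) = π (e * a * e) * π x :=
        (hcomm _ ⟨_, ha'A, ha'N, rfl⟩).eq
      rw [← hπ.mul x hx _ ha'N, ← hπ.mul _ ha'N x hx] at h2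
      have h3 := hinj _ (top_cor_mul hx ha'N) _ (top_cor_mul ha'N hx) h2
      have h4 : x * (e * a * e) = x * a := by
        rw [hea, mul_assoc a e e, he.isIdempotentElem.eq, ← hea, ← mul_assoc, hx.2.2]
      have h5 : (e * a * e) * x = a * x := by
        rw [mul_assoc, hx.2.1, hea, mul_assoc, hx.2.1]
      rw [h4, h5] at h3
      exact h3
  · rw [hΩ, norm_smul, Complex.norm_real, Real.norm_of_nonneg hs0.le]
    have h2 : (s * ‖Ω₁‖) ^ 2 = 1 := by rw [mul_pow, hΩ₁norm, hs2]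
    have h3 : 0 ≤ s * ‖Ω₁‖ := by positivity
    nlinarith
  · refine hcyc.mono ?_
    rintro _ ⟨x, hx, rfl⟩
    refine ⟨π ((s⁻¹ : ℂ) • x), (hM₁ _).2 ⟨_, top_cor_smul _ hx, rfl⟩, ?_⟩
    rw [hπ.smul _ x hx, hΩ, smul_apply, map_smul, smul_smul,
      inv_mul_cancel₀ (by exact_mod_cast hs0.ne'), one_smul]
  · intro y hy hyΩ
    obtain ⟨x, hx, rfl⟩ := (hM₁ _).1 hy
    rw [hΩ, map_smul, smul_eq_zero] at hyΩ
    rcases hyΩ with h | h
    · exact absurd h (by exact_mod_cast hs0.ne')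
    · rw [hsep x hx h, hπ.zero]
  · rintro _ ⟨a, ha, haN, rfl⟩ y hy
    obtain ⟨x, hx, rfl⟩ := (hM₁ _).1 hy
    have h2 := hΩform _ (top_cor_mul haN hx)
    have h3 := hΩform _ (top_cor_mul hx haN)
    rw [hπ.mul a haN x hx] at h2
    rw [hπ.mul x hx a haN, ← hc a ha x, ← h2] at h3
    exact (mul_left_cancel₀ h1 h3).symm
  · intro y hy
    obtain ⟨x, hx, rfl⟩ := (hM₁ _).1 hy
    rw [hψ x hx]
    exact hx
  · rintro _ ⟨a, ha, haN, rfl⟩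
    rw [hψ a haN]
    exact ha
  · rw [← hπ.one, hψ e heN]
  · intro y hy y' hy'
    obtain ⟨x, hx, rfl⟩ := (hM₁ _).1 hy
    obtain ⟨x', hx', rfl⟩ := (hM₁ _).1 hy'
    rw [← hπ.add x hx x' hx', ← hπ.mul x hx x' hx', hψ _ (top_cor_add hx hx'),
      hψ _ (top_cor_mul hx hx'), hψ x hx, hψ x' hx']
    exact ⟨rfl, rfl⟩
  · intro y hy
    obtain ⟨x, hx, rfl⟩ := (hM₁ _).1 hy
    rw [← hπ.star x hx, hψ _ (top_cor_star he hx), hψ x hx]
  · intro c y hy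
    obtain ⟨x, hx, rfl⟩ := (hM₁ _).1 hy
    rw [← hπ.smul c x hx, hψ _ (top_cor_smul c hx), hψ x hx]
  · intro y hy
    obtain ⟨x, hx, rfl⟩ := (hM₁ _).1 hy
    rw [hψ x hx, top_rep_isometry M e he π hπ hinj0 x hx]
  · intro x hx
    have hxN : e * x * e ∈ N := top_cor_compress heM he hx
    exact ⟨π (e * x * e), (hM₁ _).2 ⟨_, hxN, rfl⟩, hψ _ hxN⟩
  · intro y hy
    obtain ⟨x, hx, rfl⟩ := (hM₁ _).1 hy
    rw [hψ x hx, hΩform x hx]

end Claimed.Agent.R302
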