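/-
R302 / TOP / TRANSPORT, dominated vectors (owner helper283).
From `nc_Normal M lam` (`lam` positive) we produce, for every `ε > 0`, a selfadjoint `b ∈ M`, a finite family `ζ` and a constant `K` with
   `lam ((y b)* (y b)) ≤ K ∑ ‖y ζ_i‖²`  for ALL `y ∈ M`,        `lam ((1-b)* (1-b)) ≤ ε`.
Proof.  `lam ≤ chi + ε ‖·‖` on `M₊` for a finite sum `chi` of vector functionals (polarisation of the approximant).  Let `x₀` minimise
`F = K chi - lam` on `{x ∈ M, 0 ≤ x ≤ 1}` (WOT ultralimit of a minimising sequence, `F` is WOT continuous on bounded parts of `M`), `b := 1 - x₀`.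
* `c = (y b)* (y b) ≤ ‖y‖² b`, so `x₀ + t c` is admissible for small `t > 0`, so `F c ≥ 0`.
* `x₀ - x₀²` is admissible, so `F (x₀²) ≤ 0`, so `chi (x₀²) ≤ lam 1 / K` and `lam (x₀²) ≤ lam 1 / K + ε`.
-/
import Claimed.Agent.R302.Top.TransportDefs
import Claimed.Agent.R302.VN.Wot

set_option autoImplicit false

open scoped InnerProductSpace ComplexOrder
open Filter Topology

-- with `ComplexOrder` in scope this instance hijacks `Inner ℂ H`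
attribute [-instance] WithCStarModule.instCStarModuleComplex

namespace Claimed.Agent.R302

variable {H : Type*} [NormedAddCommGroup H] [InnerProductSpace ℂ H] [CompleteSpace H]

/-- a normal functional is WOT continuous on bounded parts of `M`. -/
theorem top_normal_tendsto (M : VonNeumannAlgebra H) (lam : (H →L[ℂ] H) → ℂ) (hn : nc_Normal M lam)
    {I : Type*} (U : Filter I) (T : I → (H →L[ℂ] H)) (b : H →L[ℂ] H) (C : ℝ) (hT : ∀ i, T i ∈ M)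
    (hC : ∀ i, ‖T i‖ ≤ C) (hbM : b ∈ M)
    (hb : ∀ v w : H, Tendsto (fun i => ⟪w, T i v⟫_ℂ) U (𝓝 ⟪w, b v⟫_ℂ)) :
    Tendsto (fun i => lam (T i)) U (𝓝 (lam b)) := by
  rw [Metric.tendsto_nhds]
  intro ε hε
  set D : ℝ := |C| + ‖b‖ + 1 with hD
  have hDpos : 0 < D := by positivity
  obtain ⟨n, ζ, η, hζ⟩ := hn (ε / (2 * D)) (by positivity)
  have h1 : Tendsto (fun i => ∑ k, ⟪η k, T i (ζ k)⟫_ℂ) U (𝓝 (∑ k, ⟪η k, b (ζ k)⟫_ℂ)) :=
    tendsto_finsetSum _ fun k _ => hb (ζ k) (η k)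
  rw [Metric.tendsto_nhds] at h1
  filter_upwards [h1 (ε / 2) (by positivity)] with i hi
  have h2 := hζ (T i) (hT i)
  have h3 := hζ b hbM
  have h4 : ε / (2 * D) * ‖T i‖ + ε / (2 * D) * ‖b‖ < ε / 2 := by
    have h5 : ‖T i‖ + ‖b‖ < D := by
      have := (hC i).trans (le_abs_self C)
      rw [hD]; linarith
    have h6 : ε / (2 * D) * (‖T i‖ + ‖b‖) < ε / (2 * D) * D :=
      mul_lt_mul_of_pos_left h5 (by positivity)
    have h7 : ε / (2 * D) * D = ε / 2 := by field_simp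
    rw [h7] at h6
    linarith
  rw [dist_eq_norm] at hi ⊢
  calc ‖lam (T i) - lam b‖
      = ‖(lam (T i) - ∑ k, ⟪η k, T i (ζ k)⟫_ℂ) + (∑ k, ⟪η k, T i (ζ k)⟫_ℂ - ∑ k, ⟪η k, b (ζ k)⟫_ℂ)
          - (lam b - ∑ k, ⟪η k, b (ζ k)⟫_ℂ)‖ := by congr 1; ring
    _ ≤ ‖lam (T i) - ∑ k, ⟪η k, T i (ζ k)⟫_ℂ‖ + ‖∑ k, ⟪η k, T i (ζ k)⟫_ℂ - ∑ k, ⟪η k, b (ζ k)⟫_ℂ‖
          + ‖lam b - ∑ k, ⟪η k, b (ζ k)⟫_ℂ‖ :=
        (norm_sub_le _ _).trans (add_le_add_left (norm_add_le _ _) _)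
    _ < ε := by linarith

/-- polarisation inequality for a positive operator. -/
theorem top_re_inner_le {x : H →L[ℂ] H} (hx : 0 ≤ x) (η ζ : H) :
    (⟪η, x ζ⟫_ℂ).re ≤ (⟪η, x η⟫_ℂ).re + (⟪ζ, x ζ⟫_ℂ).re := by
  have h0 : ∀ ξ : H, 0 ≤ (⟪ξ, x ξ⟫_ℂ).re := fun ξ => (Complex.le_def.1 (vn_nonneg_iff.1 hx ξ)).1
  have h1 := h0 (η - ζ)
  have hsa : IsSelfAdjoint x := hx.isSelfAdjoint
  have h2 : ⟪ζ, x η⟫_ℂ = (starRingEnd ℂ) ⟪η, x ζ⟫_ℂ := by
    rw [inner_conj_symm, ← ContinuousLinearMap.adjoint_inner_left, ← ContinuousLinearMap.star_eq_adjoint,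
      hsa.star_eq]
  rw [map_sub, inner_sub_left, inner_sub_right, inner_sub_right, h2] at h1
  simp only [Complex.sub_re, Complex.conj_re] at h1
  have h3 := h0 η
  have h4 := h0 ζ
  linarith

/-- `lam ≤ chi + ε ‖·‖` on the positive part of `M`. -/
theorem top_normal_le (M : VonNeumannAlgebra H) (lam : (H →L[ℂ] H) → ℂ) (hn : nc_Normal M lam)
    (ε : ℝ) (hε : 0 < ε) :
    ∃ (n : ℕ) (ζ : Fin n ⊕ Fin n → H), ∀ x ∈ M, 0 ≤ x →
      (lam x).re ≤ (nc_chi ζ x).re + ε * ‖x‖ := by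
  obtain ⟨n, ζ, η, h⟩ := hn ε hε
  refine ⟨n, Sum.elim η ζ, fun x hxM hx => ?_⟩
  have h1 := h x hxM
  have h2 : (lam x - ∑ i, ⟪η i, x (ζ i)⟫_ℂ).re ≤ ε * ‖x‖ := (Complex.re_le_norm _).trans h1
  have h3 : (∑ i, ⟪η i, x (ζ i)⟫_ℂ).re ≤ (nc_chi (Sum.elim η ζ) x).re := by
    rw [nc_chi, Fintype.sum_sum_type, Complex.add_re, Complex.re_sum, Complex.re_sum, Complex.re_sum,
      ← Finset.sum_add_distrib]
    exact Finset.sum_le_sum fun i _ => top_re_inner_le hx (η i) (ζ i)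
  rw [Complex.sub_re] at h2
  linarith

theorem top_chi_re_nonneg {κ : Type*} [Fintype κ] (ζ : κ → H) {x : H →L[ℂ] H} (hx : 0 ≤ x) :
    0 ≤ (nc_chi ζ x).re := by
  rw [nc_chi, Complex.re_sum]
  exact Finset.sum_nonneg fun k _ => (Complex.le_def.1 (vn_nonneg_iff.1 hx (ζ k))).1

omit [CompleteSpace H] in
theorem top_lam_re_mono (lam : (H →L[ℂ] H) →ₚ[ℂ] ℂ) {x y : H →L[ℂ] H} (h : x ≤ y) :
    (lam x).re ≤ (lam y).re :=
  (Complex.le_def.1 (OrderHomClass.mono lam h)).1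

/-- existence of a minimiser of `K chi - lam` on the positive part of the unit ball of `M`. -/
theorem top_exists_minimiser (M : VonNeumannAlgebra H) (lam : (H →L[ℂ] H) →ₚ[ℂ] ℂ)
    (hn : nc_Normal M lam) {κ : Type*} [Fintype κ] (ζ : κ → H) (K : ℝ) (hK : 0 ≤ K) :
    ∃ x₀ ∈ M, 0 ≤ x₀ ∧ x₀ ≤ 1 ∧ ∀ x ∈ M, 0 ≤ x → x ≤ 1 →
      K * (nc_chi ζ x₀).re - (lam x₀).re ≤ K * (nc_chi ζ x).re - (lam x).re := by
  let F : (H →L[ℂ] H) → ℝ := fun x => K * (nc_chi ζ x).re - (lam x).re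
  let S : Set (H →L[ℂ] H) := {x | x ∈ M ∧ 0 ≤ x ∧ x ≤ 1}
  have hne : (F '' S).Nonempty := ⟨F 0, 0, ⟨zero_mem _, le_rfl, zero_le_one⟩, rfl⟩
  have hbd : BddBelow (F '' S) := by
    refine ⟨-(lam 1).re, ?_⟩
    rintro _ ⟨x, ⟨-, hx0, hx1⟩, rfl⟩
    have h1 := top_lam_re_mono lam hx1
    have h2 := mul_nonneg hK (top_chi_re_nonneg ζ hx0)
    change -(lam 1).re ≤ K * (nc_chi ζ x).re - (lam x).re
    linarith
  obtain ⟨u, -, hu, huS⟩ := exists_seq_tendsto_sInf hne hbd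
  choose x hxS hxu using huS
  have hnorm : ∀ j, ‖x j‖ ≤ 1 := fun j =>
    (CStarAlgebra.norm_le_one_iff_of_nonneg (x j) (hxS j).2.1).2 (hxS j).2.2
  let U : Ultrafilter ℕ := Filter.hyperfilter ℕ
  obtain ⟨x₀, hx₀⟩ := vn_exists_wotTendsto U x (C := 1) (Eventually.of_forall hnorm)
  have hx₀M : x₀ ∈ M := hx₀.mem M (Eventually.of_forall fun j => (hxS j).1)
  have hx₀0 : 0 ≤ x₀ := hx₀.nonneg (Eventually.of_forall fun j => (hxS j).2.1)
  have hx₀1 : x₀ ≤ 1 := hx₀.le_const (Eventually.of_forall fun j => (hxS j).2.2)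
  have h1 : Tendsto (fun j => nc_chi ζ (x j)) (U : Filter ℕ) (𝓝 (nc_chi ζ x₀)) :=
    tendsto_finsetSum _ fun k _ => hx₀ (ζ k) (ζ k)
  have h2 : Tendsto (fun j => lam (x j)) (U : Filter ℕ) (𝓝 (lam x₀)) :=
    top_normal_tendsto M lam hn _ x x₀ 1 (fun j => (hxS j).1) hnorm hx₀M hx₀
  have h3 : Tendsto (fun j => F (x j)) (U : Filter ℕ) (𝓝 (F x₀)) :=
    (((Complex.continuous_re.tendsto _).comp h1).const_mul K).sub
      ((Complex.continuous_re.tendsto _).comp h2)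
  have h4 : Tendsto (fun j => F (x j)) (U : Filter ℕ) (𝓝 (sInf (F '' S))) := by
    have : (fun j => F (x j)) = u := funext hxu
    rw [this]
    exact hu.mono_left Nat.hyperfilter_le_atTop
  have h5 : F x₀ = sInf (F '' S) := tendsto_nhds_unique h3 h4
  refine ⟨x₀, hx₀M, hx₀0, hx₀1, fun y hyM hy0 hy1 => ?_⟩
  change F x₀ ≤ F y
  rw [h5]
  exact csInf_le hbd ⟨y, ⟨hyM, hy0, hy1⟩, rfl⟩

theorem top_inner_star_mul_self (z : H →L[ℂ] H) (ξ : H) :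
    ⟪ξ, (star z * z) ξ⟫_ℂ = ((‖z ξ‖ ^ 2 : ℝ) : ℂ) := by
  rw [mul_apply_eq_comp, ContinuousLinearMap.star_eq_adjoint, ContinuousLinearMap.adjoint_inner_right,
    inner_self_eq_norm_sq_to_K]
  norm_cast

theorem top_chi_star_mul_self {κ : Type*} [Fintype κ] (ζ : κ → H) (z : H →L[ℂ] H) :
    nc_chi ζ (star z * z) = ((nc_sq ζ z : ℝ) : ℂ) := by
  rw [nc_chi, nc_sq, Complex.ofReal_sum]
  exact Finset.sum_congr rfl fun k _ => top_inner_star_mul_self z (ζ k)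

omit [CompleteSpace H] in
theorem top_chi_add {κ : Type*} [Fintype κ] (ζ : κ → H) (x y : H →L[ℂ] H) :
    nc_chi ζ (x + y) = nc_chi ζ x + nc_chi ζ y := by
  simp [nc_chi, inner_add_right, Finset.sum_add_distrib]

omit [CompleteSpace H] in
theorem top_chi_smul {κ : Type*} [Fintype κ] (ζ : κ → H) (c : ℂ) (x : H →L[ℂ] H) :
    nc_chi ζ (c • x) = c * nc_chi ζ x := by
  simp [nc_chi, inner_smul_right, Finset.mul_sum]

/-- for `0 ≤ a ≤ 1` and any `y`: `t (y a)* (y a) ≤ a` as soon as `t ‖y‖² ≤ 1`, `t ≥ 0`. -/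
theorem top_conj_le {a : H →L[ℂ] H} (ha0 : 0 ≤ a) (ha1 : a ≤ 1) (y : H →L[ℂ] H) (t : ℝ)
    (ht0 : 0 ≤ t) (ht : t * ‖y‖ ^ 2 ≤ 1) : (t : ℂ) • (star (y * a) * (y * a)) ≤ a := by
  have hn : ‖a‖ ≤ 1 := (CStarAlgebra.norm_le_one_iff_of_nonneg a ha0).2 ha1
  have hsa : IsSelfAdjoint ((t : ℂ) • (star (y * a) * (y * a))) := by
    refine IsSelfAdjoint.smul ?_ (IsSelfAdjoint.star_mul_self _)
    rw [IsSelfAdjoint, Complex.star_def, Complex.conj_ofReal]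
  rw [vn_le_iff hsa ha0.isSelfAdjoint]
  intro ξ
  have h1 : (⟪ξ, ((t : ℂ) • (star (y * a) * (y * a))) ξ⟫_ℂ).re = t * ‖y (a ξ)‖ ^ 2 := by
    rw [smul_apply, inner_smul_right, top_inner_star_mul_self, ← Complex.ofReal_mul,
      Complex.ofReal_re, mul_apply_eq_comp]
  rw [h1]
  have h2 : ‖y (a ξ)‖ ^ 2 ≤ ‖y‖ ^ 2 * ‖a ξ‖ ^ 2 := by
    rw [← mul_pow]
    exact pow_le_pow_left₀ (norm_nonneg _) (y.le_opNorm _) 2
  have h3 : ‖a ξ‖ ^ 2 ≤ (⟪ξ, a ξ⟫_ℂ).re := by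
    have h4 := vn_norm_sq_apply_le ha0 ξ
    have h5 : 0 ≤ (⟪ξ, a ξ⟫_ℂ).re := (Complex.le_def.1 (vn_nonneg_iff.1 ha0 ξ)).1
    exact h4.trans (by nlinarith)
  calc t * ‖y (a ξ)‖ ^ 2 ≤ t * (‖y‖ ^ 2 * ‖a ξ‖ ^ 2) := mul_le_mul_of_nonneg_left h2 ht0
    _ = (t * ‖y‖ ^ 2) * ‖a ξ‖ ^ 2 := by ring
    _ ≤ 1 * ‖a ξ‖ ^ 2 := mul_le_mul_of_nonneg_right ht (by positivity)
    _ ≤ _ := by rw [one_mul]; exact h3

/-- **Dominated vectors.** -/
theorem top_exists_dominated (M : VonNeumannAlgebra H) (lam : (H →L[ℂ] H) →ₚ[ℂ] ℂ)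
    (hn : nc_Normal M lam) (ε : ℝ) (hε : 0 < ε) :
    ∃ b ∈ M, IsSelfAdjoint b ∧ ∃ (n : ℕ) (ζ : Fin n ⊕ Fin n → H) (K : ℝ),
      (∀ y ∈ M, (lam (star (y * b) * (y * b))).re ≤ K * nc_sq ζ y) ∧
      (lam (star (1 - b) * (1 - b))).re ≤ ε := by
  obtain ⟨n, ζ, hζ⟩ := top_normal_le M lam hn (ε / 2) (by positivity)
  set L : ℝ := (lam 1).re with hL
  have hL0 : 0 ≤ L := (Complex.le_def.1 (map_nonneg lam zero_le_one)).1
  set K : ℝ := 2 * L / ε + 1 with hK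
  have hKpos : 0 < K := by positivity
  have hKL : L ≤ K * (ε / 2) := by
    rw [hK]
    have : (2 * L / ε + 1) * (ε / 2) = L + ε / 2 := by field_simp
    rw [this]; linarith
  obtain ⟨x₀, hx₀M, hx₀0, hx₀1, hmin⟩ := top_exists_minimiser M lam hn ζ K hKpos.le
  have hbM : 1 - x₀ ∈ M := sub_mem (one_mem _) hx₀M
  have hb0 : (0 : H →L[ℂ] H) ≤ 1 - x₀ := sub_nonneg.2 hx₀1
  have hb1 : 1 - x₀ ≤ (1 : H →L[ℂ] H) := sub_le_self _ hx₀0
  refine ⟨1 - x₀, hbM, hb0.isSelfAdjoint, n, fun k => (1 - x₀) (ζ k), K, fun y hyM => ?_, ?_⟩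
  · set c : H →L[ℂ] H := star (y * (1 - x₀)) * (y * (1 - x₀)) with hc
    have hcM : c ∈ M := mul_mem (star_mem (mul_mem hyM hbM)) (mul_mem hyM hbM)
    have hc0 : 0 ≤ c := star_mul_self_nonneg _
    set t : ℝ := 1 / (‖y‖ ^ 2 + 1) with ht
    have htpos : 0 < t := by positivity
    have ht1 : t * ‖y‖ ^ 2 ≤ 1 := by
      rw [ht, one_div, inv_mul_le_iff₀ (by positivity)]
      linarith
    have hle : (t : ℂ) • c ≤ 1 - x₀ := top_conj_le hb0 hb1 y t htpos.le ht1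
    have htc0 : 0 ≤ (t : ℂ) • c := smul_nonneg (by exact_mod_cast htpos.le) hc0
    have h1 := hmin (x₀ + (t : ℂ) • c) (add_mem hx₀M (M.toStarSubalgebra.smul_mem hcM _))
      (add_nonneg hx₀0 htc0) (by
        have := add_le_add_right hle x₀
        simpa using this)
    rw [top_chi_add, top_chi_smul, map_add, map_smul, smul_eq_mul, Complex.add_re, Complex.add_re,
      Complex.re_ofReal_mul, Complex.re_ofReal_mul] at h1
    have h2 : 0 ≤ t * (K * (nc_chi ζ c).re - (lam c).re) := by nlinarith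
    have h3 : 0 ≤ K * (nc_chi ζ c).re - (lam c).re := nonneg_of_mul_nonneg_right h2 htpos
    have h4 : (nc_chi ζ c).re = nc_sq (fun k => (1 - x₀) (ζ k)) y := by
      rw [hc, top_chi_star_mul_self, Complex.ofReal_re]
      rfl
    rw [h4] at h3
    linarith
  · have h0 : (1 : H →L[ℂ] H) - (1 - x₀) = x₀ := by abel
    rw [h0]
    set d : H →L[ℂ] H := star x₀ * x₀ with hd
    have hdM : d ∈ M := mul_mem (star_mem hx₀M) hx₀M
    have hd0 : 0 ≤ d := star_mul_self_nonneg _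
    have hdle : d ≤ x₀ := by
      have := top_conj_le hx₀0 hx₀1 1 1 zero_le_one (by
        have : ‖(1 : H →L[ℂ] H)‖ ≤ 1 := ContinuousLinearMap.norm_id_le
        nlinarith [norm_nonneg (1 : H →L[ℂ] H)])
      simpa using this
    have hd1 : d ≤ 1 := hdle.trans hx₀1
    have h1 := hmin (x₀ + ((-1 : ℝ) : ℂ) • d) (add_mem hx₀M (M.toStarSubalgebra.smul_mem hdM _))
      (by simpa [← sub_eq_add_neg] using hdle)
      (by
        have : x₀ + ((-1 : ℝ) : ℂ) • d ≤ x₀ := by simpa using hd0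
        exact this.trans hx₀1)
    rw [top_chi_add, top_chi_smul, map_add, map_smul, smul_eq_mul, Complex.add_re, Complex.add_re,
      Complex.re_ofReal_mul, Complex.re_ofReal_mul] at h1
    have h2 : K * (nc_chi ζ d).re ≤ (lam d).re := by linarith
    have h3 : (lam d).re ≤ L := top_lam_re_mono lam hd1
    have h4 := hζ d hdM hd0
    have h5 : ‖d‖ ≤ 1 := (CStarAlgebra.norm_le_one_iff_of_nonneg d hd0).2 hd1
    have h6 : (nc_chi ζ d).re ≤ ε / 2 := by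
      have : K * (nc_chi ζ d).re ≤ K * (ε / 2) := (h2.trans h3).trans hKL
      exact le_of_mul_le_mul_left this hKpos
    have h7 : ε / 2 * ‖d‖ ≤ ε / 2 := by nlinarith
    linarith

end Claimed.Agent.R302
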