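/-
R302 / TOP / TRANSPORT, enough intertwiners (owner helper283).
`top_dominated_inter` : a vector `w ∈ H₁` with `‖π(y) w‖² ≤ K ∑ ‖y ζ_k‖²` (`y ∈ e M e`) lies, together with its orbit, in the span of the ranges of
   the bounded intertwiners (factorisation through `H^κ`, components of the factorising operator).
`top_enough_inter`    : for a cyclic representation with `⟪π a Ω₁, π b Ω₁⟫ = lam (a* b)`, `lam` normal on `M`, `lam (1-e) = 0`, there are enough
   intertwiners (dominated vectors `π(e b e) Ω₁` approximate `Ω₁`, `TransportDom.lean`).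
-/
import Claimed.Agent.R302.Top.TransportDom
import Claimed.Agent.R302.VN.Factor

set_option autoImplicit false

open scoped InnerProductSpace ComplexOrder

-- with `ComplexOrder` in scope this instance hijacks `Inner ℂ H`
attribute [-instance] WithCStarModule.instCStarModuleComplex

namespace Claimed.Agent.R302

variable {H : Type*} [NormedAddCommGroup H] [InnerProductSpace ℂ H] [CompleteSpace H]
variable {H₁ : Type*} [NormedAddCommGroup H₁] [InnerProductSpace ℂ H₁] [CompleteSpace H₁]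

section Amplification

variable {κ : Type*}

/-- the diagonal operator on `H^κ`. -/
noncomputable def top_diag (κ : Type*) [Fintype κ] (x : H →L[ℂ] H) :
    PiLp 2 (fun _ : κ => H) →L[ℂ] PiLp 2 (fun _ : κ => H) :=
  ((PiLp.continuousLinearEquiv 2 ℂ (fun _ : κ => H)).symm :
      (κ → H) →L[ℂ] PiLp 2 (fun _ : κ => H)) ∘L
    (ContinuousLinearMap.pi fun k =>
      x ∘L ContinuousLinearMap.proj (R := ℂ) (φ := fun _ : κ => H) k) ∘L
    ((PiLp.continuousLinearEquiv 2 ℂ (fun _ : κ => H)) : PiLp 2 (fun _ : κ => H) →L[ℂ] (κ → H))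

omit [CompleteSpace H] in
theorem top_diag_apply [Fintype κ] (x : H →L[ℂ] H) (g : PiLp 2 (fun _ : κ => H)) (k : κ) :
    top_diag κ x g k = x (g k) := rfl

/-- the `k`-th inclusion `H → H^κ`. -/
noncomputable def top_incl [Fintype κ] [DecidableEq κ] (k : κ) : H →L[ℂ] PiLp 2 (fun _ : κ => H) :=
  ((PiLp.continuousLinearEquiv 2 ℂ (fun _ : κ => H)).symm :
      (κ → H) →L[ℂ] PiLp 2 (fun _ : κ => H)) ∘L
    ContinuousLinearMap.single ℂ (fun _ : κ => H) k

omit [CompleteSpace H] in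
theorem top_incl_apply [Fintype κ] [DecidableEq κ] (k j : κ) (ξ : H) :
    (top_incl k ξ : PiLp 2 (fun _ : κ => H)) j = if j = k then ξ else 0 := by
  change (Pi.single k ξ : κ → H) j = _
  rw [Pi.single_apply]

omit [CompleteSpace H] in
theorem top_diag_incl [Fintype κ] [DecidableEq κ] (x : H →L[ℂ] H) (k : κ) (ξ : H) :
    top_diag κ x (top_incl k ξ) = top_incl k (x ξ) := by
  ext j
  rw [top_diag_apply, top_incl_apply, top_incl_apply]
  split_ifs <;> simp

omit [CompleteSpace H] in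
theorem top_sum_incl [Fintype κ] [DecidableEq κ] (g : PiLp 2 (fun _ : κ => H)) :
    ∑ k, top_incl k (g k) = g := by
  ext j
  rw [WithLp.ofLp_sum, Finset.sum_apply]
  simp only [top_incl_apply]
  rw [Finset.sum_ite_eq]
  simp

theorem top_diag_inner [Fintype κ] (x : H →L[ℂ] H) (g g' : PiLp 2 (fun _ : κ => H)) :
    ⟪g, top_diag κ x g'⟫_ℂ = ⟪top_diag κ (star x) g, g'⟫_ℂ := by
  rw [PiLp.inner_apply, PiLp.inner_apply]
  refine Finset.sum_congr rfl fun k _ => ?_
  rw [top_diag_apply, top_diag_apply, ContinuousLinearMap.star_eq_adjoint,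
    ContinuousLinearMap.adjoint_inner_left]

end Amplification

/-- the corner as a submodule. -/
def top_CorSub (M : VonNeumannAlgebra H) (e : H →L[ℂ] H) : Submodule ℂ (H →L[ℂ] H) where
  carrier := top_Cor M e
  add_mem' := top_cor_add
  zero_mem' := top_cor_zero
  smul_mem' := fun c _ hx => top_cor_smul c hx

/-- A dominated vector and its orbit are orthogonal to every vector which is orthogonal to the ranges of all intertwiners. -/
theorem top_dominated_inter (M : VonNeumannAlgebra H) (e : H →L[ℂ] H) (he : IsStarProjection e)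
    (π : (H →L[ℂ] H) → (H₁ →L[ℂ] H₁)) (hπ : top_IsRep (top_Cor M e) e π)
    {κ : Type*} [Fintype κ] (ζ : κ → H) (K : ℝ) (w : H₁)
    (hw : ∀ y ∈ top_Cor M e, ‖π y w‖ ^ 2 ≤ K * nc_sq ζ y)
    (v : H₁) (hv : ∀ c ∈ top_Inter (top_Cor M e) π, ∀ ξ : H, ⟪c ξ, v⟫_ℂ = 0)
    (x : H →L[ℂ] H) (hx : x ∈ top_Cor M e) : ⟪π x w, v⟫_ℂ = 0 := by
  classical
  let G := PiLp 2 (fun _ : κ => H)
  let Φ : top_CorSub M e →ₗ[ℂ] G :=
    { toFun := fun y => WithLp.toLp 2 (fun k => (y : H →L[ℂ] H) (ζ k))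
      map_add' := fun y y' => by ext k; rfl
      map_smul' := fun c y => by ext k; rfl }
  have hΦ : ∀ (y : top_CorSub M e) (k : κ), Φ y k = (y : H →L[ℂ] H) (ζ k) := fun _ _ => rfl
  let Ψ : top_CorSub M e →ₗ[ℂ] H₁ :=
    { toFun := fun y => π (y : H →L[ℂ] H) w
      map_add' := fun y y' => by
        change π ((y : H →L[ℂ] H) + y') w = _
        rw [hπ.add _ y.2 _ y'.2]; rfl
      map_smul' := fun c y => by
        change π (c • (y : H →L[ℂ] H)) w = _
        rw [hπ.smul c _ y.2]; rfl }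
  have hΨ : ∀ y : top_CorSub M e, Ψ y = π (y : H →L[ℂ] H) w := fun _ => rfl
  have hnorm : ∀ y, ‖Ψ y‖ ≤ Real.sqrt |K| * ‖Φ y‖ := by
    intro y
    have h1 : ‖Φ y‖ ^ 2 = nc_sq ζ (y : H →L[ℂ] H) := by
      rw [PiLp.norm_sq_eq_of_L2]; rfl
    have h2 : ‖Ψ y‖ ^ 2 ≤ (Real.sqrt |K| * ‖Φ y‖) ^ 2 := by
      rw [mul_pow, Real.sq_sqrt (abs_nonneg K), h1, hΨ]
      refine (hw _ y.2).trans (mul_le_mul_of_nonneg_right (le_abs_self K) ?_)
      exact Finset.sum_nonneg fun k _ => by positivity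
    exact (pow_le_pow_iff_left₀ (norm_nonneg _) (by positivity) two_ne_zero).1 h2
  obtain ⟨T, hT, hT0⟩ := vn_exists_factor Φ Ψ _ hnorm
  -- `T` intertwines
  have hint : ∀ z ∈ top_Cor M e, T ∘L top_diag κ z = π z ∘L T := by
    intro z hz
    refine vn_ext_of_orthogonal _ _ (Set.range Φ) ?_ ?_
    · rintro _ ⟨y, rfl⟩
      have h1 : top_diag κ z (Φ y) = Φ ⟨z * y, top_cor_mul hz y.2⟩ := by
        ext k; rfl
      rw [ContinuousLinearMap.comp_apply, ContinuousLinearMap.comp_apply, h1, hT, hT, hΨ, hΨ,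
        hπ.mul _ hz _ y.2]
      rfl
    · intro g hg
      have hg' : ∀ f, ⟪Φ f, g⟫_ℂ = 0 := fun f => hg _ ⟨f, rfl⟩
      rw [ContinuousLinearMap.comp_apply, ContinuousLinearMap.comp_apply, hT0 g hg', map_zero]
      refine hT0 _ fun f => ?_
      have h1 : top_diag κ (star z) (Φ f) = Φ ⟨star z * f, top_cor_mul (top_cor_star he hz) f.2⟩ := by
        ext k; rfl
      rw [top_diag_inner, h1]
      exact hg' _
  have hc : ∀ k, T ∘L top_incl k ∈ top_Inter (top_Cor M e) π := by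
    intro k z hz
    ext ξ
    have h1 := congrArg (fun S : G →L[ℂ] H₁ => S (top_incl k ξ)) (hint z hz)
    simp only [ContinuousLinearMap.comp_apply] at h1 ⊢
    rw [← h1, top_diag_incl]
  have h1 : π x w = ∑ k, (T ∘L top_incl k) (x (ζ k)) := by
    have h2 := hT ⟨x, hx⟩
    rw [hΨ] at h2
    rw [← h2, ← top_sum_incl (Φ ⟨x, hx⟩), map_sum]
    rfl
  rw [h1, sum_inner]
  exact Finset.sum_eq_zero fun k _ => hv _ (hc k) _

/-- Cauchy-Schwarz, degenerate case. -/
theorem top_lam_left_zero (lam : (H →L[ℂ] H) →ₚ[ℂ] ℂ) {a : H →L[ℂ] H}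
    (ha : lam (star a * a) = 0) (z : H →L[ℂ] H) : lam (star a * z) = 0 := by
  have h1 : ‖lam.toPreGNS a‖ = 0 := by
    have h2 := lam.preGNS_norm_sq (lam.toPreGNS a)
    rw [PositiveLinearMap.ofPreGNS_toPreGNS, ha] at h2
    have h3 : ‖lam.toPreGNS a‖ ^ 2 = 0 := by exact_mod_cast h2
    exact pow_eq_zero_iff two_ne_zero |>.1 h3
  have h2 := norm_inner_le_norm (𝕜 := ℂ) (lam.toPreGNS a) (lam.toPreGNS z)
  rw [h1, zero_mul, lam.preGNS_inner_def, PositiveLinearMap.ofPreGNS_toPreGNS,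
    PositiveLinearMap.ofPreGNS_toPreGNS] at h2
  exact norm_le_zero_iff.1 h2

theorem top_lam_compress (lam : (H →L[ℂ] H) →ₚ[ℂ] ℂ) {e : H →L[ℂ] H} (he : IsStarProjection e)
    (h0 : lam (1 - e) = 0) (z : H →L[ℂ] H) : lam (e * z * e) = lam z := by
  have hs : star (1 - e) = 1 - e := by rw [star_sub, star_one, he.isSelfAdjoint.star_eq]
  have hi : (1 - e) * (1 - e) = 1 - e := by
    have := he.isIdempotentElem.eq
    rw [mul_sub, sub_mul, sub_mul, this]
    simp
  have h1 : ∀ z, lam ((1 - e) * z) = 0 := by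
    intro z
    have := top_lam_left_zero lam (a := 1 - e) (by rw [hs, hi, h0]) z
    rwa [hs] at this
  have h2 : ∀ z, lam (z * (1 - e)) = 0 := by
    intro z
    have h3 := h1 (star z)
    have h4 := congrArg star h3
    rw [← map_star, star_mul, star_star, hs, star_zero] at h4
    exact h4
  have h3 : z = e * z * e + (e * z) * (1 - e) + (1 - e) * z := by noncomm_ring
  conv_rhs => rw [h3, map_add, map_add, h1, h2, add_zero, add_zero]

/-- **Enough intertwiners** for the GNS representation of a normal functional on the corner. -/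
theorem top_enough_inter (M : VonNeumannAlgebra H) (e : H →L[ℂ] H) (heM : e ∈ M)
    (he : IsStarProjection e) (lam : (H →L[ℂ] H) →ₚ[ℂ] ℂ) (hn : nc_Normal M lam)
    (h0 : lam (1 - e) = 0) (π : (H →L[ℂ] H) → (H₁ →L[ℂ] H₁)) (hπ : top_IsRep (top_Cor M e) e π)
    (Ω₁ : H₁)
    (hin : ∀ a ∈ top_Cor M e, ∀ b ∈ top_Cor M e, ⟪π a Ω₁, π b Ω₁⟫_ℂ = lam (star a * b))
    (hcyc : Dense {v : H₁ | ∃ x ∈ top_Cor M e, π x Ω₁ = v}) : top_Enough (top_Cor M e) π := by
  intro v hv
  have hnsq : ∀ a ∈ top_Cor M e, ‖π a Ω₁‖ ^ 2 = (lam (star a * a)).re := by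
    intro a ha
    have h1 := hin a ha a ha
    rw [inner_self_eq_norm_sq_to_K] at h1
    have h2 := congrArg Complex.re h1
    rw [← h2]
    norm_cast
  have key : ∀ x ∈ top_Cor M e, ⟪π x Ω₁, v⟫_ℂ = 0 := by
    intro x hx
    -- estimate for every `ε`
    have hest : ∀ ε : ℝ, 0 < ε → ‖⟪π x Ω₁, v⟫_ℂ‖ ^ 2 ≤ (‖π x‖ * ‖v‖) ^ 2 * ε := by
      intro ε hε
      obtain ⟨b, hbM, hbs, n, ζ, K, hdom, hsmall⟩ := top_exists_dominated M lam hn ε hε
      have hbN : e * b * e ∈ top_Cor M e := top_cor_compress heM he hbM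
      set w : H₁ := π (e * b * e) Ω₁ with hw
      have hwdom : ∀ y ∈ top_Cor M e, ‖π y w‖ ^ 2 ≤ K * nc_sq ζ y := by
        intro y hy
        have h1 : π y w = π (y * (e * b * e)) Ω₁ := by
          rw [hπ.mul _ hy _ hbN]; rfl
        have h2 : star (y * (e * b * e)) * (y * (e * b * e)) = e * (star (y * b) * (y * b)) * e := by
          have h3 : y * (e * b * e) = (y * b) * e := by
            rw [← mul_assoc, ← mul_assoc, hy.2.2]
          rw [h3, star_mul, he.isSelfAdjoint.star_eq]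
          noncomm_ring
        rw [h1, hnsq _ (top_cor_mul hy hbN), h2, top_lam_compress lam he h0]
        exact hdom y hy.1
      have h1 : ⟪π x w, v⟫_ℂ = 0 := top_dominated_inter M e he π hπ ζ K w hwdom v hv x hx
      have heN : e ∈ top_Cor M e := top_cor_self heM he
      have h2 : Ω₁ - w = π (e - e * b * e) Ω₁ := by
        rw [hπ.sub heN hbN, hπ.one]; rfl
      have h3 : ‖Ω₁ - w‖ ^ 2 ≤ ε := by
        rw [h2, hnsq _ (top_cor_sub heN hbN)]
        have h4 : star (e - e * b * e) * (e - e * b * e) = e * (star (1 - b) * e * (1 - b)) * e := by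
          have h5 : e - e * b * e = e * (1 - b) * e := by
            have := he.isIdempotentElem.eq
            rw [mul_sub, sub_mul, mul_one, this]
          rw [h5, star_mul, star_mul, he.isSelfAdjoint.star_eq]
          have := he.isIdempotentElem.eq
          calc e * (star (1 - b) * e) * (e * (1 - b) * e)
              = e * star (1 - b) * (e * e) * (1 - b) * e := by noncomm_ring
            _ = _ := by rw [this]; noncomm_ring
        rw [h4, top_lam_compress lam he h0]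
        refine le_trans (top_lam_re_mono lam ?_) hsmall
        have h6 : e ≤ 1 := he.le_one
        have := star_left_conjugate_le_conjugate h6 (1 - b)
        simpa using this
      have h4 : ⟪π x Ω₁, v⟫_ℂ = ⟪π x (Ω₁ - w), v⟫_ℂ := by
        rw [map_sub, inner_sub_left, h1, sub_zero]
      rw [h4]
      have h5 : ‖⟪π x (Ω₁ - w), v⟫_ℂ‖ ≤ (‖π x‖ * ‖v‖) * ‖Ω₁ - w‖ := by
        calc ‖⟪π x (Ω₁ - w), v⟫_ℂ‖ ≤ ‖π x (Ω₁ - w)‖ * ‖v‖ := norm_inner_le_norm _ _
          _ ≤ (‖π x‖ * ‖Ω₁ - w‖) * ‖v‖ :=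
            mul_le_mul_of_nonneg_right ((π x).le_opNorm _) (norm_nonneg _)
          _ = _ := by ring
      calc ‖⟪π x (Ω₁ - w), v⟫_ℂ‖ ^ 2 ≤ ((‖π x‖ * ‖v‖) * ‖Ω₁ - w‖) ^ 2 :=
            pow_le_pow_left₀ (norm_nonneg _) h5 2
        _ = (‖π x‖ * ‖v‖) ^ 2 * ‖Ω₁ - w‖ ^ 2 := by ring
        _ ≤ _ := mul_le_mul_of_nonneg_left h3 (by positivity)
    by_contra hne
    have hpos : 0 < ‖⟪π x Ω₁, v⟫_ℂ‖ ^ 2 := by positivity
    set a := ‖⟪π x Ω₁, v⟫_ℂ‖ ^ 2 with ha
    set C := (‖π x‖ * ‖v‖) ^ 2 with hC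
    have hC0 : 0 ≤ C := by positivity
    have h1 := hest (a / (2 * (C + 1))) (by positivity)
    have h2 : C * (a / (2 * (C + 1))) < a := by
      rw [← mul_div_assoc, div_lt_iff₀ (by positivity)]
      nlinarith
    linarith
  have hcl : IsClosed {w : H₁ | ⟪w, v⟫_ℂ = 0} :=
    isClosed_eq (by fun_prop) continuous_const
  have hall : ∀ w : H₁, ⟪w, v⟫_ℂ = 0 := by
    intro w
    have hsub : {v : H₁ | ∃ x ∈ top_Cor M e, π x Ω₁ = v} ⊆ {w : H₁ | ⟪w, v⟫_ℂ = 0} := by
      rintro _ ⟨x, hx, rfl⟩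
      exact key x hx
    exact closure_minimal hsub hcl (hcyc w)
  exact inner_self_eq_zero.1 (hall v)

end Claimed.Agent.R302
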