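/-
R302 / TOP / TRANSPORT, the GNS triple of `lam` on the corner `e M e` (owner helper283).
Construction: `(K, Pg, Ω_K)` = Mathlib's GNS of `lam` over `B(H)`; `V := closure {Pg(x) Ω_K : x ∈ e M e}`; `π x := P_V Pg(x)|_V`; `Ω₁ := Pg(e) Ω_K`.
-/
import Claimed.Agent.R302.Top.TransportInter

set_option autoImplicit false

open scoped InnerProductSpace ComplexOrder

-- with `ComplexOrder` in scope this instance hijacks `Inner ℂ H`
attribute [-instance] WithCStarModule.instCStarModuleComplex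

namespace Claimed.Agent.R302

universe u

/-- restriction of a representation of `B(H)` to the cyclic subspace generated by the corner. -/
theorem top_exists_gns_aux {H : Type u} [NormedAddCommGroup H] [InnerProductSpace ℂ H]
    [CompleteSpace H] {K : Type u} [NormedAddCommGroup K] [InnerProductSpace ℂ K] [CompleteSpace K]
    (M : VonNeumannAlgebra H) (e : H →L[ℂ] H) (heM : e ∈ M) (he : IsStarProjection e)
    (lam : (H →L[ℂ] H) → ℂ) (Pg : (H →L[ℂ] H) →⋆ₐ[ℂ] (K →L[ℂ] K)) (Ω : K)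
    (hinner : ∀ a b, ⟪Pg a Ω, Pg b Ω⟫_ℂ = lam (star a * b)) :
    ∃ (H₁ : Type u) (_ : NormedAddCommGroup H₁) (_ : InnerProductSpace ℂ H₁) (_ : CompleteSpace H₁)
      (π : (H →L[ℂ] H) → (H₁ →L[ℂ] H₁)) (Ω₁ : H₁),
      top_IsRep (top_Cor M e) e π ∧
      (∀ a ∈ top_Cor M e, ∀ b ∈ top_Cor M e, ⟪π a Ω₁, π b Ω₁⟫_ℂ = lam (star a * b)) ∧
      Dense {v : H₁ | ∃ x ∈ top_Cor M e, π x Ω₁ = v} := by
  set N := top_Cor M e with hN
  let V₀ : Submodule ℂ K :=
    { carrier := {v | ∃ x ∈ N, Pg x Ω = v}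
      add_mem' := by
        rintro _ _ ⟨x, hx, rfl⟩ ⟨y, hy, rfl⟩
        exact ⟨x + y, top_cor_add hx hy, by rw [map_add]; rfl⟩
      zero_mem' := ⟨0, top_cor_zero, by rw [map_zero]; rfl⟩
      smul_mem' := by
        rintro c _ ⟨x, hx, rfl⟩
        exact ⟨c • x, top_cor_smul c hx, by rw [map_smul]; rfl⟩ }
  let V : Submodule ℂ K := V₀.topologicalClosure
  have hVc : IsClosed (V : Set K) := Submodule.isClosed_topologicalClosure _
  have hVcomp : CompleteSpace V := hVc.completeSpace_coe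
  have hV₀V : ∀ x ∈ N, Pg x Ω ∈ V := fun x hx => Submodule.le_topologicalClosure _ ⟨x, hx, rfl⟩
  -- invariance
  have hinv : ∀ x ∈ N, ∀ v ∈ V, Pg x v ∈ V := by
    intro x hx v hv
    have h1 : Set.MapsTo (Pg x) (V₀ : Set K) (V₀ : Set K) := by
      rintro _ ⟨y, hy, rfl⟩
      exact ⟨x * y, top_cor_mul hx hy, by rw [map_mul]; rfl⟩
    have h2 := h1.closure (Pg x).continuous
    rw [← Submodule.topologicalClosure_coe] at h2
    exact h2 hv
  let π : (H →L[ℂ] H) → (V →L[ℂ] V) := fun x => V.orthogonalProjectionOnto ∘L Pg x ∘L V.subtypeL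
  have hπcoe : ∀ x ∈ N, ∀ v : V, ((π x v : V) : K) = Pg x (v : K) := by
    intro x hx v
    have h1 := Submodule.orthogonalProjectionOnto_mem_subspace_eq_self (K := V)
      ⟨Pg x (v : K), hinv x hx v v.2⟩
    exact congrArg Subtype.val h1
  have heN : e ∈ N := top_cor_self heM he
  have hPge : ∀ v ∈ V, Pg e v = v := by
    intro v hv
    have hcl : IsClosed {v : K | Pg e v = v} := isClosed_eq (Pg e).continuous continuous_id
    have hsub : (V₀ : Set K) ⊆ {v : K | Pg e v = v} := by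
      rintro _ ⟨y, hy, rfl⟩
      change Pg e (Pg y Ω) = Pg y Ω
      rw [← mul_apply_eq_comp, ← map_mul, hy.2.1]
    exact closure_minimal hsub hcl hv
  let Ω₁ : V := ⟨Pg e Ω, hV₀V e heN⟩
  have hπΩ : ∀ x ∈ N, ((π x Ω₁ : V) : K) = Pg x Ω := by
    intro x hx
    rw [hπcoe x hx]
    change Pg x (Pg e Ω) = Pg x Ω
    rw [← mul_apply_eq_comp, ← map_mul, hx.2.2]
  refine ⟨V, inferInstance, inferInstance, hVcomp, π, Ω₁, ⟨?_, ?_, ?_, ?_, ?_⟩, ?_, ?_⟩
  · intro x _ y _
    simp only [π]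
    rw [map_add, ContinuousLinearMap.add_comp, ContinuousLinearMap.comp_add]
  · intro c x _
    simp only [π]
    rw [map_smul, ContinuousLinearMap.smul_comp, ContinuousLinearMap.comp_smul]
  · intro x hx y hy
    ext v
    rw [hπcoe _ (top_cor_mul hx hy), map_mul, mul_apply_eq_comp, mul_apply_eq_comp, hπcoe x hx,
      hπcoe y hy]
  · intro x hx
    rw [ContinuousLinearMap.star_eq_adjoint (π x), ContinuousLinearMap.eq_adjoint_iff]
    intro v w
    rw [Submodule.coe_inner, Submodule.coe_inner, hπcoe _ (top_cor_star he hx), hπcoe x hx, map_star,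
      ContinuousLinearMap.star_eq_adjoint, ContinuousLinearMap.adjoint_inner_left]
  · ext v
    rw [hπcoe e heN, hPge _ v.2]
    rfl
  · intro a ha b hb
    rw [Submodule.coe_inner, hπΩ a ha, hπΩ b hb, hinner]
  · intro v
    have hv : (v : K) ∈ closure (V₀ : Set K) := by
      have h0 : (v : K) ∈ (V₀.topologicalClosure : Set K) := v.2
      rw [Submodule.topologicalClosure_coe] at h0
      exact h0
    rw [Metric.mem_closure_iff] at hv ⊢
    intro ε hε
    obtain ⟨_, ⟨x, hx, rfl⟩, hd⟩ := hv ε hε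
    refine ⟨π x Ω₁, ⟨x, hx, rfl⟩, ?_⟩
    rw [Subtype.dist_eq, hπΩ x hx]
    exact hd

theorem top_exists_gns {H : Type u} [NormedAddCommGroup H] [InnerProductSpace ℂ H] [CompleteSpace H]
    (M : VonNeumannAlgebra H) (e : H →L[ℂ] H) (heM : e ∈ M) (he : IsStarProjection e)
    (lam : (H →L[ℂ] H) →ₚ[ℂ] ℂ) :
    ∃ (H₁ : Type u) (_ : NormedAddCommGroup H₁) (_ : InnerProductSpace ℂ H₁) (_ : CompleteSpace H₁)
      (π : (H →L[ℂ] H) → (H₁ →L[ℂ] H₁)) (Ω₁ : H₁),
      top_IsRep (top_Cor M e) e π ∧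
      (∀ a ∈ top_Cor M e, ∀ b ∈ top_Cor M e, ⟪π a Ω₁, π b Ω₁⟫_ℂ = lam (star a * b)) ∧
      Dense {v : H₁ | ∃ x ∈ top_Cor M e, π x Ω₁ = v} := by
  refine top_exists_gns_aux M e heM he lam lam.gnsStarAlgHom
    ((lam.toPreGNS 1 : lam.PreGNS) : lam.GNS) fun a b => ?_
  have h1 : ∀ a : H →L[ℂ] H, lam.gnsStarAlgHom a ((lam.toPreGNS 1 : lam.PreGNS) : lam.GNS)
      = ((lam.toPreGNS a : lam.PreGNS) : lam.GNS) := by
    intro a
    simp
  rw [h1, h1, UniformSpace.Completion.inner_coe, lam.preGNS_inner_def]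
  simp

end Claimed.Agent.R302
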