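/-
R302 / TOP / TRANSPORT (owner helper283).  From a normal `A`-central positive functional `lam` with support `e ∈ A` to a standard-like
representation of `e M e`:  `ψ` is an isometric *-isomorphism of `M₁` onto `e M e` carrying `A₁` into `A`, and `lam ∘ ψ` is (up to `lam 1`)
the vector state of a cyclic and separating unit vector.
Construction: GNS (K, pi, x) of `lam` over `B(H)` (Mathlib), `H₁ := closure (pi(e M e) x)`, `pi₁ := pi|eMe` restricted to `H₁` (`TransportGNS`),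
`M₁ := pi₁(e M e)''`; `pi₁(e M e) = M₁` by the "enough intertwiners" theorem (`TransportBicomm`), the intertwiners come from dominated vectors
(`TransportDom`, `TransportInter`); `ψ := (pi₁ | e M e)⁻¹`, `A₁ := pi₁(A e)` (`TransportCore`).  No bicommutant density theorem, no Kaplansky.
-/
import Claimed.Agent.R302.Top.TransportGNS
import Claimed.Agent.R302.Top.TransportBicomm
import Claimed.Agent.R302.Top.TransportCore

set_option autoImplicit false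

open scoped InnerProductSpace ComplexOrder

-- with `ComplexOrder` in scope this instance hijacks `Inner ℂ H`
attribute [-instance] WithCStarModule.instCStarModuleComplex

namespace Claimed.Agent.R302

universe u

theorem top_transport {H : Type u} [NormedAddCommGroup H] [InnerProductSpace ℂ H] [CompleteSpace H]
    (M : VonNeumannAlgebra H) (A : StarSubalgebra ℂ (H →L[ℂ] H)) (hA : nc_Masa M A)
    (e : H →L[ℂ] H) (heA : e ∈ A) (he : IsStarProjection e)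
    (lam : (H →L[ℂ] H) →ₚ[ℂ] ℂ) (hn : nc_Normal M lam)
    (hc : ∀ a ∈ A, ∀ z, lam (a * z) = lam (z * a)) (h0 : lam (1 - e) = 0)
    (hf : ∀ y ∈ M, lam (star y * y) = 0 → y * e = 0) (h1 : lam 1 ≠ 0) :
    ∃ (H₁ : Type u) (_ : NormedAddCommGroup H₁) (_ : InnerProductSpace ℂ H₁) (_ : CompleteSpace H₁)
      (M₁ : VonNeumannAlgebra H₁) (A₁ : StarSubalgebra ℂ (H₁ →L[ℂ] H₁)) (Ω : H₁)
      (ψ : (H₁ →L[ℂ] H₁) → (H →L[ℂ] H)),
      nc_Masa M₁ A₁ ∧ ‖Ω‖ = 1 ∧ Dense {v : H₁ | ∃ x ∈ M₁, x Ω = v} ∧ (∀ x ∈ M₁, x Ω = 0 → x = 0) ∧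
      (∀ a ∈ A₁, ∀ x ∈ M₁, ⟪Ω, (a * x) Ω⟫_ℂ = ⟪Ω, (x * a) Ω⟫_ℂ) ∧
      (∀ y ∈ M₁, ψ y ∈ M ∧ e * ψ y = ψ y ∧ ψ y * e = ψ y) ∧ (∀ y ∈ A₁, ψ y ∈ A) ∧ ψ 1 = e ∧
      (∀ y ∈ M₁, ∀ y' ∈ M₁, ψ (y + y') = ψ y + ψ y' ∧ ψ (y * y') = ψ y * ψ y') ∧
      (∀ y ∈ M₁, ψ (star y) = star (ψ y)) ∧ (∀ (c : ℂ), ∀ y ∈ M₁, ψ (c • y) = c • ψ y) ∧
      (∀ y ∈ M₁, ‖ψ y‖ = ‖y‖) ∧ (∀ x ∈ M, ∃ x₁ ∈ M₁, ψ x₁ = e * x * e) ∧
      (∀ y ∈ M₁, lam (ψ y) = lam 1 * ⟪Ω, y Ω⟫_ℂ) := by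
  have heM : e ∈ M := ((hA e).1 heA).1
  obtain ⟨H₁, i1, i2, i3, π, Ω₁, hπ, hin, hcyc⟩ := top_exists_gns M e heM he lam
  have hEI := top_enough_inter M e heM he lam hn h0 π hπ Ω₁ hin hcyc
  have hbic := top_rep_bicommutant M e heM he π hπ hEI
  exact ⟨H₁, i1, i2, i3, top_transport_core M A hA e heA he lam hc h0 hf h1 π Ω₁ hπ hin hcyc hbic⟩

end Claimed.Agent.R302
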