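/-
R302 / TOP : the central corner (Core pulled back through `top_transport`) and block diagonal bookkeeping for `1 = e + h`.
Owner helper7.  Sorry-free modulo `top_transport` and the NC / VN packages.
-/
import Claimed.Agent.R302.Top.Core
import Claimed.Agent.R302.Top.Transport
import Claimed.Agent.R302.NC.Main

set_option autoImplicit false
set_option linter.unusedSectionVars false

open scoped InnerProductSpace ComplexOrder

attribute [-instance] WithCStarModule.instCStarModuleComplex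

namespace Claimed.Agent.R302

universe u

variable {H : Type u} [NormedAddCommGroup H] [InnerProductSpace ℂ H] [CompleteSpace H]

/-- Pythagoras for a projection. -/
theorem top_pythagoras {e : H →L[ℂ] H} (he : IsStarProjection e) (a b : H) :
    ‖e a + (1 - e) b‖ ^ 2 = ‖e a‖ ^ 2 + ‖(1 - e) b‖ ^ 2 := by
  have h0 : e * (1 - e) = 0 := by rw [mul_sub, mul_one, he.isIdempotentElem.eq, sub_self]
  have h1 : ⟪e a, (1 - e) b⟫_ℂ = 0 := nc_inner_proj_orth he h0 a b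
  have := norm_add_sq (𝕜 := ℂ) (e a) ((1 - e) b)
  rw [h1] at this
  simpa using this

/-- norm of a block diagonal operator. -/
theorem top_norm_block (e : H →L[ℂ] H) (he : IsStarProjection e) (v w : H →L[ℂ] H)
    (hv : e * v * e = v) (hw : (1 - e) * w * (1 - e) = w) (C : ℝ) (hvC : ‖v‖ ≤ C) (hwC : ‖w‖ ≤ C) :
    ‖v + w‖ ≤ C := by
  have hC : 0 ≤ C := (norm_nonneg _).trans hvC
  refine ContinuousLinearMap.opNorm_le_bound _ hC fun ζ => ?_
  have h1 : (v + w) ζ = e (v (e ζ)) + (1 - e) (w ((1 - e) ζ)) := by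
    conv_lhs => rw [← hv, ← hw]
    rfl
  have h2 : ‖(v + w) ζ‖ ^ 2 ≤ (C * ‖ζ‖) ^ 2 := by
    rw [h1, top_pythagoras he]
    have h3 : ‖e (v (e ζ))‖ ≤ C * ‖e ζ‖ :=
      (nc_proj_norm_apply_le he _).trans ((v.le_opNorm _).trans (by gcongr))
    have h4 : ‖(1 - e) (w ((1 - e) ζ))‖ ≤ C * ‖(1 - e) ζ‖ :=
      (nc_proj_norm_apply_le he.one_sub _).trans ((w.le_opNorm _).trans (by gcongr))
    have h5 : ‖ζ‖ ^ 2 = ‖e ζ‖ ^ 2 + ‖(1 - e) ζ‖ ^ 2 := by
      rw [← top_pythagoras he]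
      congr 2
      simp
    have h6 : ‖e (v (e ζ))‖ ^ 2 ≤ (C * ‖e ζ‖) ^ 2 := pow_le_pow_left₀ (norm_nonneg _) h3 2
    have h7 : ‖(1 - e) (w ((1 - e) ζ))‖ ^ 2 ≤ (C * ‖(1 - e) ζ‖) ^ 2 :=
      pow_le_pow_left₀ (norm_nonneg _) h4 2
    rw [mul_pow, h5]
    rw [mul_pow] at h6 h7
    linarith
  exact (pow_le_pow_iff_left₀ (norm_nonneg _) (by positivity) two_ne_zero).1 h2

/-- gluing partitions of `e` and of `1 - e` (and `k` zero pieces). -/
theorem top_glue_part (A : StarSubalgebra ℂ (H →L[ℂ] H)) (e : H →L[ℂ] H) (he : IsStarProjection e)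
    {R m : ℕ} (k : ℕ) (p : Fin R → (H →L[ℂ] H)) (p' : Fin m → (H →L[ℂ] H)) (hp : nc_IsPart A e p)
    (hp' : nc_IsPart A (1 - e) p') :
    ∃ P : Fin (R + m + k) → (H →L[ℂ] H), nc_IsPart A 1 P ∧
      ∀ z, nc_pinch P z = nc_pinch p z + nc_pinch p' z := by
  have h0 : e * (1 - e) = 0 := by rw [mul_sub, mul_one, he.isIdempotentElem.eq, sub_self]
  have h0' : (1 - e) * e = 0 := by rw [sub_mul, one_mul, he.isIdempotentElem.eq, sub_self]
  have hx : ∀ i j, p i * p' j = 0 := fun i j => by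
    rw [← nc_part_mul_right A e p hp i, ← nc_part_mul_left A (1 - e) p' hp' j, mul_assoc,
      ← mul_assoc e, h0, zero_mul, mul_zero]
  have hx' : ∀ i j, p' j * p i = 0 := fun i j => by
    rw [← nc_part_mul_right A (1 - e) p' hp' j, ← nc_part_mul_left A e p hp i, mul_assoc,
      ← mul_assoc (1 - e), h0', zero_mul, mul_zero]
  refine ⟨Fin.append (Fin.append p p') (fun _ => 0), ⟨?_, ?_, ?_⟩, ?_⟩
  · intro i
    refine Fin.addCases (fun j => ?_) (fun j => ?_) i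
    · rw [Fin.append_left]
      refine Fin.addCases (fun l => ?_) (fun l => ?_) j
      · rw [Fin.append_left]; exact hp.1 l
      · rw [Fin.append_right]; exact hp'.1 l
    · rw [Fin.append_right]; exact ⟨zero_mem A, IsStarProjection.zero _⟩
  · intro i j
    refine Fin.addCases (fun i' => ?_) (fun i' => ?_) i
    · refine Fin.addCases (fun j' => ?_) (fun j' => ?_) j
      · intro hij
        have hij' : i' ≠ j' := fun h => hij (by rw [h])
        rw [Fin.append_left, Fin.append_left]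
        revert hij'
        refine Fin.addCases (fun a => ?_) (fun a => ?_) i'
        · refine Fin.addCases (fun b => ?_) (fun b => ?_) j'
          · intro hab
            rw [Fin.append_left, Fin.append_left]
            exact hp.2.1 a b fun h => hab (by rw [h])
          · intro _
            rw [Fin.append_left, Fin.append_right]
            exact hx a b
        · refine Fin.addCases (fun b => ?_) (fun b => ?_) j'
          · intro _
            rw [Fin.append_left, Fin.append_right]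
            exact hx' b a
          · intro hab
            rw [Fin.append_right, Fin.append_right]
            exact hp'.2.1 a b fun h => hab (by rw [h])
      · intro _
        rw [Fin.append_right, mul_zero]
    · intro _
      rw [Fin.append_right, zero_mul]
  · rw [Fin.sum_univ_add, Fin.sum_univ_add]
    simp only [Fin.append_left, Fin.append_right, Finset.sum_const_zero, add_zero]
    rw [hp.2.2, hp'.2.2]; abel
  · intro z
    unfold nc_pinch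
    rw [Fin.sum_univ_add, Fin.sum_univ_add]
    simp only [Fin.append_left, Fin.append_right, zero_mul, Finset.sum_const_zero, add_zero]


/-- Core on the corner `e = supp lam`.  (If `lam 1 = 0` then `e = 0` and everything is `0`.) -/
theorem top_corner_central {ε : ℝ} {R : ℕ} (hε : 0 ≤ ε) (hcore : top_Core.{u} ε R)
    (M : VonNeumannAlgebra H) (A : StarSubalgebra ℂ (H →L[ℂ] H)) (hA : nc_Masa M A)
    (e : H →L[ℂ] H) (heA : e ∈ A) (he : IsStarProjection e)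
    (lam : (H →L[ℂ] H) →ₚ[ℂ] ℂ) (hn : nc_Normal M lam)
    (hc : ∀ a ∈ A, ∀ z, lam (a * z) = lam (z * a)) (h0 : lam (1 - e) = 0)
    (hf : ∀ y ∈ M, lam (star y * y) = 0 → y * e = 0)
    {ι : Type*} [Fintype ι] (ξ : ι → H) (x : H →L[ℂ] H) (hx : x ∈ M) (hxs : IsSelfAdjoint x)
    (hx1 : ‖x‖ ≤ 1) (δ : ℝ) (hδ : 0 < δ) :
    ∃ p : Fin R → (H →L[ℂ] H), nc_IsPart A e p ∧ ∃ a ∈ A, IsSelfAdjoint a ∧ ‖a‖ ≤ 1 ∧ a * e = a ∧
      ∃ q ∈ M, IsStarProjection q ∧ e * q = q ∧ (∀ i, Commute q (p i)) ∧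
        Commute q (nc_pinch p x - a) ∧ nc_sq ξ (e - q) < δ ∧ ‖(nc_pinch p x - a) * q‖ ≤ ε := by
  by_cases h1 : lam 1 = 0
  · have he0 : e = 0 := by
      have := hf 1 (one_mem M) (by rw [star_one, one_mul]; exact h1)
      rwa [one_mul] at this
    subst he0
    refine ⟨fun _ => 0, ⟨fun _ => ⟨zero_mem A, IsStarProjection.zero _⟩, fun _ _ _ => by simp,
      by simp⟩, 0, zero_mem A, IsSelfAdjoint.zero _, by simp, by simp, 0, zero_mem M,
      IsStarProjection.zero _, by simp, fun _ => Commute.zero_left _, Commute.zero_left _, ?_, ?_⟩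
    · simpa [nc_sq] using hδ
    · simpa using hε
  obtain ⟨H₁, i1, i2, i3, M₁, A₁, Ω, ψ, hA₁, hΩ, hcyc, hsep, hcen, hψM, hψA, hψ1, hψam, hψs, hψc,
    hψn, hψsurj, hψl⟩ := top_transport M A hA e heA he lam hn hc h0 hf h1
  have heM : e ∈ M := nc_masa_le M A hA heA
  have hAM₁ : ∀ {y : H₁ →L[ℂ] H₁}, y ∈ A₁ → y ∈ M₁ := fun hy => nc_masa_le M₁ A₁ hA₁ hy
  -- elementary properties of `ψ`
  have hψ0 : ψ 0 = 0 := by
    have := hψc 0 1 (one_mem M₁)
    simpa using this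
  have hψneg : ∀ y ∈ M₁, ψ (-y) = - ψ y := fun y hy => by
    have := hψc (-1) y hy
    simpa using this
  have hψsub : ∀ y ∈ M₁, ∀ y' ∈ M₁, ψ (y - y') = ψ y - ψ y' := fun y hy y' hy' => by
    rw [sub_eq_add_neg, (hψam y hy (-y') (neg_mem hy')).1, hψneg y' hy', sub_eq_add_neg]
  have hψmul : ∀ y ∈ M₁, ∀ y' ∈ M₁, ψ (y * y') = ψ y * ψ y' := fun y hy y' hy' =>
    (hψam y hy y' hy').2
  have hψinj : ∀ y ∈ M₁, ∀ y' ∈ M₁, ψ y = ψ y' → y = y' := fun y hy y' hy' h => by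
    have h2 : ‖y - y'‖ = 0 := by
      rw [← hψn (y - y') (sub_mem hy hy'), hψsub y hy y' hy', h, sub_self, norm_zero]
    exact sub_eq_zero.1 (norm_eq_zero.1 h2)
  have hψsum : ∀ (s : Finset (Fin R)) (f : Fin R → (H₁ →L[ℂ] H₁)), (∀ i, f i ∈ M₁) →
      ψ (∑ i ∈ s, f i) = ∑ i ∈ s, ψ (f i) := by
    intro s f hfM
    induction s using Finset.induction_on with
    | empty => simpa using hψ0
    | insert a s ha ih =>
      rw [Finset.sum_insert ha, Finset.sum_insert ha,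
        (hψam _ (hfM a) _ (sum_mem fun i _ => hfM i)).1, ih]
  have hψproj : ∀ y ∈ M₁, IsStarProjection y → IsStarProjection (ψ y) := fun y hy hyp =>
    ⟨by rw [IsIdempotentElem, ← hψmul y hy y hy, hyp.isIdempotentElem.eq],
      by rw [IsSelfAdjoint, ← hψs y hy, hyp.isSelfAdjoint.star_eq]⟩
  have hψcomm : ∀ y ∈ M₁, ∀ y' ∈ M₁, Commute y y' → Commute (ψ y) (ψ y') := fun y hy y' hy' h => by
    rw [commute_iff_eq, ← hψmul y hy y' hy', ← hψmul y' hy' y hy, h.eq]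
  -- the element to be paved
  obtain ⟨x₁, hx₁M, hx₁⟩ := hψsurj x hx
  have hx₁s : IsSelfAdjoint x₁ := by
    refine hψinj _ (star_mem hx₁M) _ hx₁M ?_
    rw [hψs x₁ hx₁M, hx₁, star_mul, star_mul, he.isSelfAdjoint.star_eq, hxs.star_eq, mul_assoc]
  have hx₁n : ‖x₁‖ ≤ 1 := by
    rw [← hψn x₁ hx₁M, hx₁]
    calc ‖e * x * e‖ ≤ ‖e‖ * ‖x‖ * ‖e‖ :=
          (norm_mul_le _ _).trans (mul_le_mul_of_nonneg_right (norm_mul_le _ _) (norm_nonneg _))
      _ ≤ 1 * 1 * 1 := by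
          have := he.norm_le
          gcongr
      _ = 1 := by norm_num
  -- positivity of `lam 1`
  have hl1 : (0 : ℂ) ≤ lam 1 := lam.map_nonneg zero_le_one
  have hl1re : 0 < (lam 1).re := by
    have h2 := Complex.le_def.1 hl1
    refine lt_of_le_of_ne h2.1 fun h3 => h1 ?_
    exact Complex.ext h3.symm h2.2.symm
  have hl1im : (lam 1).im = 0 := (Complex.le_def.1 hl1).2.symm
  obtain ⟨ρ, hρ, hac⟩ := nc_abs_cont M lam hn e heM hf ξ δ hδ
  obtain ⟨p₁, hp₁, a₁, ha₁A, ha₁s, ha₁n, q₁, hq₁M, hq₁p, hq₁c, hq₁z, hq₁Ω, hq₁n⟩ :=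
    hcore H₁ M₁ A₁ Ω hA₁ hΩ hcyc hsep hcen x₁ hx₁M hx₁s hx₁n (ρ / (lam 1).re) (by positivity)
  have hp₁M : ∀ i, p₁ i ∈ M₁ := fun i => hAM₁ (hp₁.1 i).1
  have ha₁M : a₁ ∈ M₁ := hAM₁ ha₁A
  have hpin₁M : nc_pinch p₁ x₁ ∈ M₁ := nc_pinch_mem M₁ p₁ hp₁M hx₁M
  have hpin : nc_pinch (fun i => ψ (p₁ i)) x = ψ (nc_pinch p₁ x₁) := by
    unfold nc_pinch
    rw [hψsum _ _ fun i => mul_mem (mul_mem (hp₁M i) hx₁M) (hp₁M i)]
    refine Finset.sum_congr rfl fun i _ => ?_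
    rw [hψmul _ (mul_mem (hp₁M i) hx₁M) _ (hp₁M i), hψmul _ (hp₁M i) _ hx₁M, hx₁]
    have e1 := (hψM (p₁ i) (hp₁M i)).2.1
    have e2 := (hψM (p₁ i) (hp₁M i)).2.2
    calc ψ (p₁ i) * x * ψ (p₁ i) = (ψ (p₁ i) * e) * x * (e * ψ (p₁ i)) := by rw [e1, e2]
      _ = ψ (p₁ i) * (e * x * e) * ψ (p₁ i) := by simp only [mul_assoc]
  have hz : nc_pinch (fun i => ψ (p₁ i)) x - ψ a₁ = ψ (nc_pinch p₁ x₁ - a₁) := by
    rw [hpin, hψsub _ hpin₁M _ ha₁M]
  refine ⟨fun i => ψ (p₁ i), ⟨fun i => ⟨hψA _ (hp₁.1 i).1, hψproj _ (hp₁M i) (hp₁.1 i).2⟩,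
    fun i j hij => ?_, ?_⟩, ψ a₁, hψA _ ha₁A, ?_, ?_, (hψM a₁ ha₁M).2.2, ψ q₁, (hψM q₁ hq₁M).1,
    hψproj _ hq₁M hq₁p, (hψM q₁ hq₁M).2.1, fun i => hψcomm _ hq₁M _ (hp₁M i) (hq₁c i), ?_, ?_, ?_⟩
  · rw [← hψmul _ (hp₁M i) _ (hp₁M j), hp₁.2.1 i j hij, hψ0]
  · rw [← hψsum _ _ hp₁M, hp₁.2.2, hψ1]
  · rw [IsSelfAdjoint, ← hψs a₁ ha₁M, ha₁s.star_eq]
  · rw [hψn a₁ ha₁M]; exact ha₁n
  · rw [hz]; exact hψcomm _ hq₁M _ (sub_mem hpin₁M ha₁M) hq₁z
  · have hg : e - ψ q₁ = ψ (1 - q₁) := by rw [hψsub _ (one_mem M₁) _ hq₁M, hψ1]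
    have h1q : (1 - q₁) ∈ M₁ := sub_mem (one_mem M₁) hq₁M
    rw [hg]
    refine hac _ (hψM _ h1q).1 (hψproj _ h1q hq₁p.one_sub) (hψM _ h1q).2.1 ?_
    rw [hψl _ h1q]
    have h3 : ⟪Ω, (1 - q₁) Ω⟫_ℂ = ((‖(1 - q₁) Ω‖ ^ 2 : ℝ) : ℂ) := by
      have h4 : (1 - q₁) ((1 - q₁) Ω) = (1 - q₁) Ω :=
        congrArg (fun T : H₁ →L[ℂ] H₁ => T Ω) hq₁p.one_sub.isIdempotentElem.eq
      have h5 : ⟪(1 - q₁) Ω, (1 - q₁) Ω⟫_ℂ = ⟪Ω, (1 - q₁) Ω⟫_ℂ := by
        rw [nc_bl_inner_sa hq₁p.one_sub.isSelfAdjoint, h4]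
      rw [← h5, inner_self_eq_norm_sq_to_K]
      norm_cast
    rw [h3, Complex.re_mul_ofReal]
    calc (lam 1).re * ‖(1 - q₁) Ω‖ ^ 2 < (lam 1).re * (ρ / (lam 1).re) := by gcongr
      _ = ρ := by field_simp
  · rw [hz, ← hψmul _ (sub_mem hpin₁M ha₁M) _ hq₁M, hψn _ (mul_mem (sub_mem hpin₁M ha₁M) hq₁M)]
    exact hq₁n

end Claimed.Agent.R302
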