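/-
R302 / TOP : so-paving (S0556) from Core.   Owner helper7.  Sorry-free modulo Top/Corner, NC/Main.
Proof.  x' = x/‖x‖ (0 if x = 0), ξ := (fun v : F => v).  nc_decomp gives e, lam, h = 1-e singular.
top_corner_central (δ^2/2) on e, nc_ncq (ρ = δ^2/2) on h; glue (one zero piece); a = ‖x‖ (a_e + a_h), q = q_e + q_h.
q (pinch P x' - a') q = q_e z_e q_e + q_h z_h q_h (block diagonal), ‖(1-q) v‖^2 = ‖(e-q_e) v‖^2 + ‖(h-q_h) v‖^2.
-/
import Claimed.Agent.R302.Top.Corner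

set_option autoImplicit false
set_option linter.unusedSectionVars false

open scoped InnerProductSpace ComplexOrder

attribute [-instance] WithCStarModule.instCStarModuleComplex

namespace Claimed.Agent.R302

universe u

variable {H : Type u} [NormedAddCommGroup H] [InnerProductSpace ℂ H] [CompleteSpace H]

/-- one term of `nc_sq`. -/
theorem top_le_sq {ι : Type*} [Fintype ι] (ξ : ι → H) (T : H →L[ℂ] H) (k : ι) :
    ‖T (ξ k)‖ ^ 2 ≤ nc_sq ξ T :=
  Finset.single_le_sum (f := fun k => ‖T (ξ k)‖ ^ 2) (fun _ _ => by positivity) (Finset.mem_univ k)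

/-- so-paving of a contraction. -/
theorem top_so_paving_one {ε : ℝ} {R : ℕ} (hε : 0 < ε) (hε1 : ε < 1) (hcore : top_Core.{u} ε R)
    (M : VonNeumannAlgebra H) (A : StarSubalgebra ℂ (H →L[ℂ] H)) (hA : nc_Masa M A)
    (x : H →L[ℂ] H) (hx : x ∈ M) (hxs : IsSelfAdjoint x) (hx1 : ‖x‖ ≤ 1)
    (F : Finset H) (δ : ℝ) (hδ : 0 < δ) :
    ∃ p : Fin (R + Nat.ceil (4 / ε) + 1) → (H →L[ℂ] H), nc_IsPart A 1 p ∧
      ∃ a ∈ A, IsSelfAdjoint a ∧ ‖a‖ ≤ 1 ∧
        ∃ q ∈ M, IsStarProjection q ∧ (∀ v ∈ F, ‖(1 - q) v‖ < δ) ∧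
          ‖q * (nc_pinch p x - a) * q‖ ≤ ε := by
  set ξ : F → H := fun v => (v : H) with hξ
  obtain ⟨e, heA, he, hsing, lam, hn, hc, h0, hf⟩ := nc_decomp M A hA ξ
  have hδ2 : 0 < δ ^ 2 / 2 := by positivity
  obtain ⟨pe, hpe, ae, haeA, haes, haen, haee, qe, hqeM, hqep, heqe, -, -, hqeδ, hqen⟩ :=
    top_corner_central hε.le hcore M A hA e heA he lam hn hc h0 hf ξ x hx hxs hx1 (δ ^ 2 / 2) hδ2
  have hhA : (1 - e) ∈ A := sub_mem (one_mem A) heA
  have hh : IsStarProjection (1 - e) := he.one_sub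
  obtain ⟨ph, hph, ah, hahA, hahs, hahn, hahh, qh, hqhM, hqhp, hhqh, hqhδ, hqhn⟩ :=
    nc_ncq M A hA (1 - e) hhA hh ξ hsing x hx hxs hx1 ε (δ ^ 2 / 2) hε hε1 hδ2
  obtain ⟨P, hP, hPz⟩ := top_glue_part A e he 1 pe ph hpe hph
  have heh : e * (1 - e) = 0 := by rw [mul_sub, mul_one, he.isIdempotentElem.eq, sub_self]
  have hhe : (1 - e) * e = 0 := by rw [sub_mul, one_mul, he.isIdempotentElem.eq, sub_self]
  -- adjoint relations
  have heae : e * ae = ae := by
    have := congrArg star haee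
    rwa [star_mul, haes.star_eq, he.isSelfAdjoint.star_eq] at this
  have hhah : (1 - e) * ah = ah := by
    have := congrArg star hahh
    rwa [star_mul, hahs.star_eq, hh.isSelfAdjoint.star_eq] at this
  have hqee : qe * e = qe := by
    have := congrArg star heqe
    rwa [star_mul, hqep.isSelfAdjoint.star_eq, he.isSelfAdjoint.star_eq] at this
  have hqhh : qh * (1 - e) = qh := by
    have := congrArg star hhqh
    rwa [star_mul, hqhp.isSelfAdjoint.star_eq, hh.isSelfAdjoint.star_eq] at this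
  have hqeqh : qe * qh = 0 := by
    rw [← hqee, ← hhqh, mul_assoc, ← mul_assoc e, heh, zero_mul, mul_zero]
  set ze := nc_pinch pe x - ae with hze
  set zh := nc_pinch ph x - ah with hzh
  have hze1 : e * ze = ze := by rw [hze, mul_sub, nc_bl_h_mul_pinch A e pe hpe, heae]
  have hze2 : ze * e = ze := by rw [hze, sub_mul, nc_bl_pinch_mul_h A e pe hpe, haee]
  have hzh1 : (1 - e) * zh = zh := by rw [hzh, mul_sub, nc_bl_h_mul_pinch A (1 - e) ph hph, hhah]
  have hzh2 : zh * (1 - e) = zh := by rw [hzh, sub_mul, nc_bl_pinch_mul_h A (1 - e) ph hph, hahh]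
  have hqhze : qh * ze = 0 := by rw [← hqhh, ← hze1, mul_assoc, ← mul_assoc (1 - e), hhe, zero_mul, mul_zero]
  have hzeqh : ze * qh = 0 := by rw [← hhqh, ← hze2, mul_assoc, ← mul_assoc e, heh, zero_mul, mul_zero]
  have hqezh : qe * zh = 0 := by rw [← hqee, ← hzh1, mul_assoc, ← mul_assoc e, heh, zero_mul, mul_zero]
  have hzhqe : zh * qe = 0 := by rw [← heqe, ← hzh2, mul_assoc, ← mul_assoc (1 - e), hhe, zero_mul, mul_zero]
  refine ⟨P, hP, ae + ah, add_mem haeA hahA, haes.add hahs, ?_, qe + qh, add_mem hqeM hqhM,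
    hqep.add hqhp hqeqh, ?_, ?_⟩
  · refine top_norm_block e he ae ah ?_ ?_ 1 haen hahn
    · rw [heae, haee]
    · rw [hhah, hahh]
  · intro v hv
    have h1 : (1 - (qe + qh)) v = e ((e - qe) v) + (1 - e) (((1 - e) - qh) v) := by
      have a1 : e * (e - qe) = e - qe := by rw [mul_sub, he.isIdempotentElem.eq, heqe]
      have a2 : (1 - e) * ((1 - e) - qh) = (1 - e) - qh := by
        rw [mul_sub, hh.isIdempotentElem.eq, hhqh]
      have a3 : (1 - (qe + qh)) = e * (e - qe) + (1 - e) * ((1 - e) - qh) := by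
        rw [a1, a2]; abel
      rw [a3]; rfl
    have h2 : ‖(1 - (qe + qh)) v‖ ^ 2 < δ ^ 2 := by
      rw [h1, top_pythagoras he]
      have b1 : ‖e ((e - qe) v)‖ ^ 2 ≤ nc_sq ξ (e - qe) :=
        (pow_le_pow_left₀ (norm_nonneg _) (nc_proj_norm_apply_le he _) 2).trans
          (top_le_sq ξ (e - qe) ⟨v, hv⟩)
      have b2 : ‖(1 - e) (((1 - e) - qh) v)‖ ^ 2 ≤ nc_sq ξ ((1 - e) - qh) :=
        (pow_le_pow_left₀ (norm_nonneg _) (nc_proj_norm_apply_le hh _) 2).trans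
          (top_le_sq ξ ((1 - e) - qh) ⟨v, hv⟩)
      linarith
    exact (pow_lt_pow_iff_left₀ (norm_nonneg _) hδ.le two_ne_zero).1 h2
  · have h1 : (qe + qh) * (nc_pinch P x - (ae + ah)) * (qe + qh) = qe * ze * qe + qh * zh * qh := by
      have : nc_pinch P x - (ae + ah) = ze + zh := by rw [hPz, hze, hzh]; abel
      rw [this]
      simp only [add_mul, mul_add, hqhze, hqezh, add_zero, zero_add, mul_assoc, hzeqh,
        hzhqe, mul_zero]
    rw [h1]
    refine top_norm_block e he _ _ ?_ ?_ ε ?_ hqhn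
    · simp only [← mul_assoc, heqe]
      simp only [mul_assoc, hqee]
    · simp only [← mul_assoc, hhqh]
      simp only [mul_assoc, hqhh]
    · calc ‖qe * ze * qe‖ = ‖qe * (ze * qe)‖ := by rw [mul_assoc]
        _ ≤ ‖qe‖ * ‖ze * qe‖ := norm_mul_le _ _
        _ ≤ 1 * ε := by
            have := hqep.norm_le
            gcongr
        _ = ε := one_mul _

theorem top_so_paving {ε : ℝ} {R : ℕ} (hε : 0 < ε) (hε1 : ε < 1) (hcore : top_Core.{u} ε R)
    (M : VonNeumannAlgebra H) (A : StarSubalgebra ℂ (H →L[ℂ] H)) (hA : nc_Masa M A)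
    (x : H →L[ℂ] H) (hx : x ∈ M) (hxs : IsSelfAdjoint x) (F : Finset H) (δ : ℝ) (hδ : 0 < δ) :
    ∃ p : Fin (R + Nat.ceil (4 / ε) + 1) → (H →L[ℂ] H), nc_IsPart A 1 p ∧
      ∃ a ∈ A, IsSelfAdjoint a ∧ ‖a‖ ≤ ‖x‖ ∧
        ∃ q ∈ M, IsStarProjection q ∧ (∀ v ∈ F, ‖(1 - q) v‖ < δ) ∧
          ‖q * ((∑ i, p i * x * p i) - a) * q‖ ≤ ε * ‖x‖ := by
  set c : ℝ := ‖x‖ with hc
  have hc0 : 0 ≤ c := norm_nonneg _
  set x' : H →L[ℂ] H := ((c⁻¹ : ℝ) : ℂ) • x with hx'
  have hxx' : x = (c : ℂ) • x' := by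
    by_cases h : c = 0
    · have : x = 0 := norm_eq_zero.1 h
      rw [hx', this]; simp
    · rw [hx', smul_smul, ← Complex.ofReal_mul, mul_inv_cancel₀ h]; simp
  have hx'M : x' ∈ M := M.toStarSubalgebra.smul_mem hx _
  have hx's : IsSelfAdjoint x' := by
    rw [IsSelfAdjoint, hx', star_smul, hxs.star_eq]
    congr 1
    exact Complex.conj_ofReal _
  have hx'1 : ‖x'‖ ≤ 1 := by
    rw [hx', norm_smul, Complex.norm_real, Real.norm_eq_abs, abs_of_nonneg (inv_nonneg.2 hc0)]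
    by_cases h : c = 0
    · rw [h]; simp
    · rw [← hc, inv_mul_cancel₀ h]
  obtain ⟨p, hp, a, haA, has, han, q, hqM, hqp, hqF, hqn⟩ :=
    top_so_paving_one hε hε1 hcore M A hA x' hx'M hx's hx'1 F δ hδ
  refine ⟨p, hp, (c : ℂ) • a, A.smul_mem haA _, ?_, ?_, q, hqM, hqp, hqF, ?_⟩
  · rw [IsSelfAdjoint, star_smul, has.star_eq]
    congr 1
    exact Complex.conj_ofReal _
  · rw [norm_smul, Complex.norm_real, Real.norm_eq_abs, abs_of_nonneg hc0]
    calc c * ‖a‖ ≤ c * 1 := by gcongr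
      _ = c := mul_one _
  · have h1 : (∑ i, p i * x * p i) - (c : ℂ) • a = (c : ℂ) • (nc_pinch p x' - a) := by
      conv_lhs => rw [hxx']
      unfold nc_pinch
      rw [smul_sub, Finset.smul_sum]
      simp only [mul_smul_comm, smul_mul_assoc]
    rw [h1, mul_smul_comm, smul_mul_assoc, norm_smul, Complex.norm_real, Real.norm_eq_abs,
      abs_of_nonneg hc0, mul_comm]
    gcongr

end Claimed.Agent.R302
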