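/-
R302 / TOP : approximation paving (S0557) from Core.   Owner helper7.  Sorry-free modulo Top/Corner, NC/Main.
Proof.  x = 0 trivial.  Else normalise ‖x‖ = 1.  η := ε/8; vector ζ, ‖ζ‖ < 1, with ‖x ζ‖ > 1-η/2.
Test family ξ := F, x F, ζ, x ζ  (chosen BEFORE e: e depends on ξ).  nc_decomp: e, lam, h = 1-e.
top_corner_central with Core (ε/4): p^e, a_e, q_e, z_e = pinch p^e x - a_e (commutes with q_e and p^e_i).  nc_ncp with m ≥ 4/ε: p^h, s.
k := e + s (0 ≤ k ≤ 1),   y := k x k - z_e (e - q_e).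
  * y = y*, ‖y‖ ≤ 1 + 2;   (y - x) v = -(h-s) x v + (h-s) x (h-s) v - x (h-s) v - z_e (e-q_e) v : small for v, x v in the family;
  * pinch P y - a_e = z_e q_e + pinch p^h (s x s), block diagonal, norm ≤ max (ε/4, 1/m) ≤ ε/4   (-s^2 ≤ s x s ≤ s^2 ≤ s);
  * ‖y‖ ≥ ‖y ζ‖ ≥ 1 - η;  a := min(1,‖y‖) a_e, ‖a - a_e‖ ≤ η;  ε/4 + η ≤ ε (1-η).
-/
import Claimed.Agent.R302.Top.Corner
import Claimed.Agent.R302.Top.SoPaving

set_option autoImplicit false
set_option linter.unusedSectionVars false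

open scoped InnerProductSpace ComplexOrder

attribute [-instance] WithCStarModule.instCStarModuleComplex

namespace Claimed.Agent.R302

universe u

variable {H : Type u} [NormedAddCommGroup H] [InnerProductSpace ℂ H] [CompleteSpace H]

theorem top_pinch_sub {κ : Type*} [Fintype κ] (p : κ → (H →L[ℂ] H)) (z w : H →L[ℂ] H) :
    nc_pinch p (z - w) = nc_pinch p z - nc_pinch p w := by
  simp [nc_pinch, mul_sub, sub_mul, Finset.sum_sub_distrib]

/-- `‖∑ p_i s x s p_i‖ ≤ c` if `p_i s p_i ≤ c p_i`. -/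
theorem top_pinch_small (A : StarSubalgebra ℂ (H →L[ℂ] H)) (h : H →L[ℂ] H) (hp : IsStarProjection h)
    {κ : Type*} [Fintype κ] (p : κ → (H →L[ℂ] H)) (hpp : nc_IsPart A h p) (s : H →L[ℂ] H)
    (hs0 : 0 ≤ s) (hsh : s ≤ h) (c : ℝ) (hc : 0 ≤ c) (hps : ∀ i, p i * s * p i ≤ c • p i)
    (x : H →L[ℂ] H) (hxs : IsSelfAdjoint x) (hx1 : ‖x‖ ≤ 1) : ‖nc_pinch p (s * x * s)‖ ≤ c := by
  have hsa : IsSelfAdjoint s := IsSelfAdjoint.of_nonneg hs0
  have hpsa : ∀ i, IsSelfAdjoint (p i) := fun i => (hpp.1 i).2.isSelfAdjoint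
  refine nc_cut_norm_le_of_quad (nc_pinch_isSelfAdjoint p hpsa (hxs.conjugate_self hsa)) hc
    fun w => ?_
  have h1 : ⟪(nc_pinch p (s * x * s)) w, w⟫_ℂ = ∑ i, ⟪x (s (p i w)), s (p i w)⟫_ℂ := by
    unfold nc_pinch
    rw [sum_apply, sum_inner]
    refine Finset.sum_congr rfl fun i _ => ?_
    have : (p i * (s * x * s) * p i) w = p i (s (x (s (p i w)))) := rfl
    rw [this, nc_bl_inner_sa (hpsa i), nc_bl_inner_sa hsa]
  have h2 : ∀ i, ‖⟪x (s (p i w)), s (p i w)⟫_ℂ‖ ≤ c * ‖p i w‖ ^ 2 := by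
    intro i
    have a1 : ‖⟪x (s (p i w)), s (p i w)⟫_ℂ‖ ≤ ‖s (p i w)‖ ^ 2 := by
      refine (norm_inner_le_norm _ _).trans ?_
      have : ‖x (s (p i w))‖ ≤ 1 * ‖s (p i w)‖ := (x.le_opNorm _).trans (by gcongr)
      nlinarith [norm_nonneg (s (p i w))]
    have a2 : ‖s (p i w)‖ ^ 2 ≤ (⟪p i w, s (p i w)⟫_ℂ).re := nc_bl_norm_sq_le hs0 hsh hp _
    have a3 : (⟪p i w, s (p i w)⟫_ℂ).re = (⟪w, (p i * s * p i) w⟫_ℂ).re := by
      have : (p i * s * p i) w = p i (s (p i w)) := rfl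
      rw [this, ← nc_bl_inner_sa (hpsa i)]
    have a4 := nc_bl_le_inner (hps i) w
    rw [nc_cut_inner_real_smul, nc_bl_proj_norm_sq (hpp.1 i).2] at a4
    linarith
  rw [h1]
  calc |(∑ i, ⟪x (s (p i w)), s (p i w)⟫_ℂ).re| ≤ ‖∑ i, ⟪x (s (p i w)), s (p i w)⟫_ℂ‖ :=
        Complex.abs_re_le_norm _
    _ ≤ ∑ i, ‖⟪x (s (p i w)), s (p i w)⟫_ℂ‖ := norm_sum_le _ _
    _ ≤ ∑ i, c * ‖p i w‖ ^ 2 := Finset.sum_le_sum fun i _ => h2 i
    _ = c * ‖h w‖ ^ 2 := by rw [← Finset.mul_sum, nc_part_sq_sum A h p hpp]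
    _ ≤ c * ‖w‖ ^ 2 := by
        have := nc_proj_norm_apply_le hp w
        gcongr


/-- approximation paving of a selfadjoint operator of norm one. -/
theorem top_approx_paving_one {ε : ℝ} {R m : ℕ} (hε : 0 < ε) (hε1 : ε < 1)
    (hcore : top_Core.{u} (ε / 4) R) (hm : 4 / ε ≤ (m : ℝ))
    (M : VonNeumannAlgebra H) (A : StarSubalgebra ℂ (H →L[ℂ] H)) (hA : nc_Masa M A)
    (x : H →L[ℂ] H) (hx : x ∈ M) (hxs : IsSelfAdjoint x) (hx1 : ‖x‖ = 1)
    (F : Finset H) (δ : ℝ) (hδ : 0 < δ) :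
    ∃ y ∈ M, IsSelfAdjoint y ∧ ‖y‖ ≤ 3 ∧ (∀ v ∈ F, ‖(y - x) v‖ < δ) ∧
      ∃ p : Fin (R + m) → (H →L[ℂ] H), nc_IsPart A 1 p ∧
        ∃ a ∈ A, IsSelfAdjoint a ∧ ‖a‖ ≤ ‖y‖ ∧ ‖nc_pinch p y - a‖ ≤ ε * ‖y‖ := by
  classical
  have hx1' : ‖x‖ ≤ 1 := hx1.le
  set η : ℝ := ε / 8 with hη
  have hηpos : 0 < η := by positivity
  obtain ⟨ζ, hζ1, hζ2⟩ := x.exists_lt_apply_of_lt_opNorm (r := 1 - η / 2) (by rw [hx1]; linarith)
  set F' : Finset H := F ∪ F.image (fun v => x v) ∪ {ζ, x ζ} with hF'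
  set ξ : F' → H := fun v => (v : H) with hξ
  have hmemF : ∀ v ∈ F, v ∈ F' ∧ x v ∈ F' := by
    intro v hv
    constructor
    · simp [hF', hv]
    · have : x v ∈ F.image (fun v => x v) := Finset.mem_image_of_mem _ hv
      simp only [hF', Finset.mem_union]
      exact Or.inl (Or.inr this)
  have hmemζ : ζ ∈ F' ∧ x ζ ∈ F' := by
    constructor <;> simp [hF']
  set τ : ℝ := min (δ / 5) (η / 10) with hτ
  have hτpos : 0 < τ := lt_min (by positivity) (by positivity)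
  have hτ2 : 0 < τ ^ 2 := by positivity
  have hmpos : 0 < m := by
    have : (0 : ℝ) < m := lt_of_lt_of_le (by positivity) hm
    exact_mod_cast this
  have hmR : (0 : ℝ) < m := by exact_mod_cast hmpos
  have hminv : 1 / (m : ℝ) ≤ ε / 4 := by
    rw [div_le_div_iff₀ hmR (by norm_num)]
    have := (div_le_iff₀ hε).1 hm
    linarith
  obtain ⟨e, heA, he, hsing, lam, hn, hc, h0, hf⟩ := nc_decomp M A hA ξ
  obtain ⟨pe, hpe, ae, haeA, haes, haen, haee, qe, hqeM, hqep, heqe, hqec, hqez, hqeδ, hqen⟩ :=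
    top_corner_central (by positivity) hcore M A hA e heA he lam hn hc h0 hf ξ x hx hxs hx1'
      (τ ^ 2) hτ2
  have heM : e ∈ M := nc_masa_le M A hA heA
  have hhA : (1 - e) ∈ A := sub_mem (one_mem A) heA
  have hh : IsStarProjection (1 - e) := he.one_sub
  obtain ⟨ph, hph, s, hsM, hs0, hsh, hsδ, hps⟩ :=
    nc_ncp M A hA (1 - e) hhA hh ξ hsing m hmpos (τ ^ 2) hτ2
  obtain ⟨P, hP, hPz⟩ := top_glue_part A e he 0 pe ph hpe hph
  have heh : e * (1 - e) = 0 := by rw [mul_sub, mul_one, he.isIdempotentElem.eq, sub_self]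
  have hhe : (1 - e) * e = 0 := by rw [sub_mul, one_mul, he.isIdempotentElem.eq, sub_self]
  have hsa : IsSelfAdjoint s := IsSelfAdjoint.of_nonneg hs0
  obtain ⟨hsh1, hsh2⟩ := hh.mul_right_and_mul_left_of_nonneg_of_le hs0 hsh
  have hes : e * s = 0 := by rw [← hsh2, ← mul_assoc, heh, zero_mul]
  have hse : s * e = 0 := by rw [← hsh1, mul_assoc, hhe, mul_zero]
  have heae : e * ae = ae := by
    have := congrArg star haee
    rwa [star_mul, haes.star_eq, he.isSelfAdjoint.star_eq] at this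
  have hqee : qe * e = qe := by
    have := congrArg star heqe
    rwa [star_mul, hqep.isSelfAdjoint.star_eq, he.isSelfAdjoint.star_eq] at this
  have hpeM : ∀ i, pe i ∈ M := fun i => nc_masa_le M A hA (hpe.1 i).1
  have hpesa : ∀ i, IsSelfAdjoint (pe i) := fun i => (hpe.1 i).2.isSelfAdjoint
  set ze := nc_pinch pe x - ae with hze
  have hzeM : ze ∈ M := sub_mem (nc_pinch_mem M pe hpeM hx) (nc_masa_le M A hA haeA)
  have hzes : IsSelfAdjoint ze := (nc_pinch_isSelfAdjoint pe hpesa hxs).sub haes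
  have hzen : ‖ze‖ ≤ 2 := by
    calc ‖ze‖ ≤ ‖nc_pinch pe x‖ + ‖ae‖ := norm_sub_le _ _
      _ ≤ 1 + 1 := add_le_add ((nc_pinch_norm_le A e pe hpe x).trans hx1') haen
      _ = 2 := by norm_num
  have hze1 : e * ze = ze := by rw [hze, mul_sub, nc_bl_h_mul_pinch A e pe hpe, heae]
  have hze2 : ze * e = ze := by rw [hze, sub_mul, nc_bl_pinch_mul_h A e pe hpe, haee]
  have hzepe : ∀ i, Commute ze (pe i) := fun i =>
    ((nc_pinch_commute_piece A e pe hpe x i).symm).sub_left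
      (nc_masa_commute M A hA haeA (hpe.1 i).1)
  have heqp : IsStarProjection (e - qe) := hqep.sub_of_mul_eq_right he heqe
  have hzeq : Commute ze (e - qe) := by
    refine Commute.sub_right ?_ hqez.symm
    rw [commute_iff_eq, hze1, hze2]
  set we := ze * (e - qe) with hwe
  have hweM : we ∈ M := mul_mem hzeM (sub_mem heM hqeM)
  have hwes : IsSelfAdjoint we := (hzes.commute_iff heqp.isSelfAdjoint).1 hzeq
  have hwen : ‖we‖ ≤ 2 := by
    calc ‖we‖ ≤ ‖ze‖ * ‖e - qe‖ := norm_mul_le _ _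
      _ ≤ 2 * 1 := by
          have := heqp.norm_le
          gcongr
      _ = 2 := by norm_num
  have hwe1 : e * we = we := by rw [hwe, ← mul_assoc, hze1]
  have heqe2 : (e - qe) * e = e - qe := by rw [sub_mul, he.isIdempotentElem.eq, hqee]
  have hwe2 : we * e = we := by
    rw [hwe, mul_assoc, heqe2]
  have hwepe : ∀ i, Commute we (pe i) := fun i =>
    (hzepe i).mul_left (Commute.sub_left
      (by rw [commute_iff_eq, nc_part_mul_left A e pe hpe i, nc_part_mul_right A e pe hpe i])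
      (hqec i))
  -- `d = h - s`, `k = 1 - d = e + s`
  set d := (1 - e) - s with hd
  have hd0 : 0 ≤ d := sub_nonneg.2 hsh
  have hdn : ‖d‖ ≤ 1 := by
    refine (CStarAlgebra.norm_le_one_iff_of_nonneg d hd0).2 ?_
    exact (sub_le_self _ hs0).trans hh.le_one
  have hdM : d ∈ M := sub_mem (sub_mem (one_mem M) heM) hsM
  set k := e + s with hk
  have hkd : k = 1 - d := by rw [hk, hd]; abel
  have hkM : k ∈ M := add_mem heM hsM
  have hks : IsSelfAdjoint k := he.isSelfAdjoint.add hsa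
  have hkn : ‖k‖ ≤ 1 := by
    refine (CStarAlgebra.norm_le_one_iff_of_nonneg k (add_nonneg he.nonneg hs0)).2 ?_
    rw [hkd]; exact sub_le_self _ hd0
  set y := k * x * k - we with hy
  have hyM : y ∈ M := sub_mem (mul_mem (mul_mem hkM hx) hkM) hweM
  have hys : IsSelfAdjoint y := (hxs.conjugate_self hks).sub hwes
  have hyn : ‖y‖ ≤ 3 := by
    calc ‖y‖ ≤ ‖k * x * k‖ + ‖we‖ := norm_sub_le _ _
      _ ≤ 1 + 2 := by
          refine add_le_add ?_ hwen
          calc ‖k * x * k‖ ≤ ‖k‖ * ‖x‖ * ‖k‖ :=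
                (norm_mul_le _ _).trans (mul_le_mul_of_nonneg_right (norm_mul_le _ _) (norm_nonneg _))
            _ ≤ 1 * 1 * 1 := by gcongr
            _ = 1 := by norm_num
      _ = 3 := by norm_num
  -- the approximation estimate
  have hsmall : ∀ v ∈ F', ‖d v‖ < τ ∧ ‖(e - qe) v‖ < τ := by
    intro v hv
    constructor
    · have := (top_le_sq ξ d ⟨v, hv⟩).trans_lt hsδ
      exact (pow_lt_pow_iff_left₀ (norm_nonneg _) hτpos.le two_ne_zero).1 this
    · have := (top_le_sq ξ (e - qe) ⟨v, hv⟩).trans_lt hqeδ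
      exact (pow_lt_pow_iff_left₀ (norm_nonneg _) hτpos.le two_ne_zero).1 this
  have happ : ∀ v, v ∈ F' → x v ∈ F' → ‖(y - x) v‖ < 5 * τ := by
    intro v hv hxv
    have e1 : y - x = - (d * x) - x * d + d * x * d - ze * (e - qe) := by
      rw [hy, hkd, hwe]
      simp only [sub_mul, mul_sub, one_mul, mul_one]
      abel
    have e2 : (y - x) v = - d (x v) - x (d v) + d (x (d v)) - ze ((e - qe) v) := by
      rw [e1]; rfl
    have b1 := (hsmall v hv).1
    have b2 := (hsmall v hv).2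
    have b3 := (hsmall (x v) hxv).1
    have c1 : ‖x (d v)‖ ≤ ‖d v‖ := by
      calc ‖x (d v)‖ ≤ ‖x‖ * ‖d v‖ := x.le_opNorm _
        _ ≤ 1 * ‖d v‖ := by gcongr
        _ = ‖d v‖ := one_mul _
    have c2 : ‖d (x (d v))‖ ≤ ‖d v‖ := by
      calc ‖d (x (d v))‖ ≤ ‖d‖ * ‖x (d v)‖ := d.le_opNorm _
        _ ≤ 1 * ‖d v‖ := by gcongr
        _ = ‖d v‖ := one_mul _
    have c3 : ‖ze ((e - qe) v)‖ ≤ 2 * ‖(e - qe) v‖ := by
      calc ‖ze ((e - qe) v)‖ ≤ ‖ze‖ * ‖(e - qe) v‖ := ze.le_opNorm _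
        _ ≤ 2 * ‖(e - qe) v‖ := by gcongr
    rw [e2]
    calc ‖- d (x v) - x (d v) + d (x (d v)) - ze ((e - qe) v)‖
        ≤ ‖- d (x v) - x (d v) + d (x (d v))‖ + ‖ze ((e - qe) v)‖ := norm_sub_le _ _
      _ ≤ ‖- d (x v) - x (d v)‖ + ‖d (x (d v))‖ + ‖ze ((e - qe) v)‖ := by
          gcongr; exact norm_add_le _ _
      _ ≤ ‖- d (x v)‖ + ‖x (d v)‖ + ‖d (x (d v))‖ + ‖ze ((e - qe) v)‖ := by
          gcongr; exact norm_sub_le _ _
      _ < 5 * τ := by rw [norm_neg]; linarith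
  -- lower bound for the norm of `y`
  have hylow : 1 - η < ‖y‖ := by
    have a1 : ‖(y - x) ζ‖ < 5 * τ := happ ζ hmemζ.1 hmemζ.2
    have a2 : 5 * τ ≤ η / 2 := by
      have : τ ≤ η / 10 := min_le_right _ _
      linarith
    have a3 : ‖x ζ‖ ≤ ‖y ζ‖ + ‖(y - x) ζ‖ := by
      have : x ζ = y ζ - (y - x) ζ := by simp
      calc ‖x ζ‖ = ‖y ζ - (y - x) ζ‖ := by rw [← this]
        _ ≤ _ := norm_sub_le _ _
    have a4 : ‖y ζ‖ ≤ ‖y‖ := by
      calc ‖y ζ‖ ≤ ‖y‖ * ‖ζ‖ := y.le_opNorm _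
        _ ≤ ‖y‖ * 1 := by gcongr
        _ = ‖y‖ := mul_one _
    linarith
  -- the pinching of `y`
  have hpek : ∀ i, pe i * k = pe i := fun i => by
    rw [hk, mul_add, nc_part_mul_right A e pe hpe i, ← nc_part_mul_right A e pe hpe i, mul_assoc, hes,
      mul_zero, add_zero]
  have hkpe : ∀ i, k * pe i = pe i := fun i => by
    rw [hk, add_mul, nc_part_mul_left A e pe hpe i, ← nc_part_mul_left A e pe hpe i, ← mul_assoc, hse,
      zero_mul, add_zero]
  have hphe : ∀ i, ph i * e = 0 := fun i => by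
    rw [← nc_part_mul_right A (1 - e) ph hph i, mul_assoc, hhe, mul_zero]
  have heph : ∀ i, e * ph i = 0 := fun i => by
    rw [← nc_part_mul_left A (1 - e) ph hph i, ← mul_assoc, heh, zero_mul]
  have hpin1 : nc_pinch pe (k * x * k) = nc_pinch pe x := by
    unfold nc_pinch
    refine Finset.sum_congr rfl fun i _ => ?_
    calc pe i * (k * x * k) * pe i = (pe i * k) * x * (k * pe i) := by simp only [mul_assoc]
      _ = pe i * x * pe i := by rw [hpek, hkpe]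
  have hpin2 : nc_pinch pe we = we := by
    have := nc_pinch_mul_left pe we hwepe 1
    rw [mul_one, nc_pinch_one A e pe hpe, hwe2] at this
    exact this
  have hpin3 : nc_pinch ph (k * x * k) = nc_pinch ph (s * x * s) := by
    unfold nc_pinch
    refine Finset.sum_congr rfl fun i _ => ?_
    have a1 : ph i * k = ph i * s := by rw [hk, mul_add, hphe, zero_add]
    have a2 : k * ph i = s * ph i := by rw [hk, add_mul, heph, zero_add]
    calc ph i * (k * x * k) * ph i = (ph i * k) * x * (k * ph i) := by simp only [mul_assoc]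
      _ = (ph i * s) * x * (s * ph i) := by rw [a1, a2]
      _ = ph i * (s * x * s) * ph i := by simp only [mul_assoc]
  have hpin4 : nc_pinch ph we = 0 := by
    unfold nc_pinch
    refine Finset.sum_eq_zero fun i _ => ?_
    rw [← hwe1, ← mul_assoc, hphe, zero_mul, zero_mul]
  have hmain : nc_pinch P y - ae = ze * qe + nc_pinch ph (s * x * s) := by
    rw [hPz, hy, top_pinch_sub, top_pinch_sub, hpin1, hpin2, hpin3, hpin4, hwe, mul_sub, hze2]
    rw [hze]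
    abel
  have hmainn : ‖nc_pinch P y - ae‖ ≤ ε / 4 := by
    rw [hmain]
    refine top_norm_block e he _ _ ?_ ?_ (ε / 4) hqen ?_
    · rw [← mul_assoc, hze1, mul_assoc, hqee]
    · rw [nc_bl_h_mul_pinch A (1 - e) ph hph, nc_bl_pinch_mul_h A (1 - e) ph hph]
    · exact (top_pinch_small A (1 - e) hh ph hph s hs0 hsh (1 / (m : ℝ)) (by positivity) hps x hxs
        hx1').trans hminv
  -- rescaling of `a`
  set t : ℝ := min 1 ‖y‖ with ht
  have ht0 : 0 ≤ t := le_min zero_le_one (norm_nonneg _)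
  have ht1 : t ≤ 1 := min_le_left _ _
  have hty : t ≤ ‖y‖ := min_le_right _ _
  have htlow : 1 - η ≤ t := le_min (by linarith) hylow.le
  refine ⟨y, hyM, hys, hyn, ?_, P, hP, (t : ℂ) • ae, A.smul_mem haeA _, ?_, ?_, ?_⟩
  · intro v hv
    have := happ v (hmemF v hv).1 (hmemF v hv).2
    have h5 : 5 * τ ≤ δ := by
      have : τ ≤ δ / 5 := min_le_left _ _
      linarith
    linarith
  · rw [IsSelfAdjoint, star_smul, haes.star_eq]
    congr 1
    exact Complex.conj_ofReal _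
  · rw [norm_smul, Complex.norm_real, Real.norm_eq_abs, abs_of_nonneg ht0]
    calc t * ‖ae‖ ≤ t * 1 := by gcongr
      _ = t := mul_one _
      _ ≤ ‖y‖ := hty
  · have e1 : nc_pinch P y - (t : ℂ) • ae = (nc_pinch P y - ae) + ((1 - t : ℝ) : ℂ) • ae := by
      push_cast
      rw [sub_smul, one_smul]; abel
    have e2 : ‖((1 - t : ℝ) : ℂ) • ae‖ ≤ η := by
      rw [norm_smul, Complex.norm_real, Real.norm_eq_abs, abs_of_nonneg (by linarith)]
      calc (1 - t) * ‖ae‖ ≤ (1 - t) * 1 := by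
            have : 0 ≤ 1 - t := by linarith
            gcongr
        _ ≤ η := by linarith
    rw [e1]
    calc ‖(nc_pinch P y - ae) + ((1 - t : ℝ) : ℂ) • ae‖
        ≤ ‖nc_pinch P y - ae‖ + ‖((1 - t : ℝ) : ℂ) • ae‖ := norm_add_le _ _
      _ ≤ ε / 4 + η := add_le_add hmainn e2
      _ ≤ ε * (1 - η) := by rw [hη]; nlinarith
      _ ≤ ε * ‖y‖ := by gcongr


/-- the trivial partition `1, 0, 0, ...`. -/
theorem top_trivial_part (A : StarSubalgebra ℂ (H →L[ℂ] H)) {n : ℕ} (hn : 0 < n) :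
    nc_IsPart A 1 (fun i : Fin n => if i = ⟨0, hn⟩ then (1 : H →L[ℂ] H) else 0) := by
  refine ⟨fun i => ?_, fun i j hij => ?_, ?_⟩
  · dsimp only
    split_ifs
    · exact ⟨one_mem A, IsStarProjection.one _⟩
    · exact ⟨zero_mem A, IsStarProjection.zero _⟩
  · dsimp only
    split_ifs with h1 h2
    · exact absurd (h1.trans h2.symm) hij
    · simp
    · simp
    · simp
  · simp

theorem top_approx_paving {ε : ℝ} {R m : ℕ} (hε : 0 < ε) (hε1 : ε < 1) (hcore : top_Core.{u} (ε / 4) R)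
    (hm : 4 / ε ≤ (m : ℝ))
    (M : VonNeumannAlgebra H) (A : StarSubalgebra ℂ (H →L[ℂ] H)) (hA : nc_Masa M A)
    (x : H →L[ℂ] H) (hx : x ∈ M) (hxs : IsSelfAdjoint x) (F : Finset H) (δ : ℝ) (hδ : 0 < δ) :
    ∃ y ∈ M, IsSelfAdjoint y ∧ ‖y‖ ≤ 3 * ‖x‖ ∧ (∀ v ∈ F, ‖(y - x) v‖ < δ) ∧
      ∃ p : Fin (R + m) → (H →L[ℂ] H), nc_IsPart A 1 p ∧
        ∃ a ∈ A, IsSelfAdjoint a ∧ ‖a‖ ≤ ‖y‖ ∧ ‖(∑ i, p i * y * p i) - a‖ ≤ ε * ‖y‖ := by
  by_cases hx0 : x = 0
  · have hmpos : 0 < R + m := by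
      have : (0 : ℝ) < m := lt_of_lt_of_le (by positivity) hm
      have : 0 < m := by exact_mod_cast this
      omega
    subst hx0
    refine ⟨0, zero_mem M, IsSelfAdjoint.zero _, by simp, fun v _ => by simpa using hδ, _,
      top_trivial_part A hmpos, 0, zero_mem A, IsSelfAdjoint.zero _, by simp, by simp⟩
  set c : ℝ := ‖x‖ with hc
  have hcpos : 0 < c := norm_pos_iff.2 hx0
  set x' : H →L[ℂ] H := ((c⁻¹ : ℝ) : ℂ) • x with hx'
  have hxx' : x = (c : ℂ) • x' := by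
    rw [hx', smul_smul, ← Complex.ofReal_mul, mul_inv_cancel₀ hcpos.ne']; simp
  have hx'M : x' ∈ M := M.toStarSubalgebra.smul_mem hx _
  have hx's : IsSelfAdjoint x' := by
    rw [IsSelfAdjoint, hx', star_smul, hxs.star_eq]
    congr 1
    exact Complex.conj_ofReal _
  have hx'1 : ‖x'‖ = 1 := by
    rw [hx', norm_smul, Complex.norm_real, Real.norm_eq_abs, abs_of_nonneg (inv_nonneg.2 hcpos.le),
      ← hc, inv_mul_cancel₀ hcpos.ne']
  obtain ⟨y, hyM, hys, hyn, hyF, p, hp, a, haA, has, han, hfin⟩ :=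
    top_approx_paving_one hε hε1 hcore hm M A hA x' hx'M hx's hx'1 F (δ / c) (by positivity)
  have hnc : ∀ T : H →L[ℂ] H, ‖(c : ℂ) • T‖ = c * ‖T‖ := fun T => by
    rw [norm_smul, Complex.norm_real, Real.norm_eq_abs, abs_of_nonneg hcpos.le]
  have hsc : ∀ T : H →L[ℂ] H, IsSelfAdjoint T → IsSelfAdjoint ((c : ℂ) • T) := fun T hT => by
    rw [IsSelfAdjoint, star_smul, hT.star_eq]
    congr 1
    exact Complex.conj_ofReal _
  refine ⟨(c : ℂ) • y, M.toStarSubalgebra.smul_mem hyM _, hsc y hys, ?_, ?_, p, hp, (c : ℂ) • a,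
    A.smul_mem haA _, hsc a has, ?_, ?_⟩
  · rw [hnc]; nlinarith
  · intro v hv
    have h1 : ((c : ℂ) • y - x) v = (c : ℂ) • ((y - x') v) := by
      conv_lhs => rw [hxx']
      rw [← smul_sub]; rfl
    rw [h1, norm_smul, Complex.norm_real, Real.norm_eq_abs, abs_of_nonneg hcpos.le]
    have := hyF v hv
    rw [lt_div_iff₀ hcpos] at this
    linarith
  · rw [hnc, hnc]; gcongr
  · have h1 : (∑ i, p i * ((c : ℂ) • y) * p i) - (c : ℂ) • a = (c : ℂ) • (nc_pinch p y - a) := by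
      unfold nc_pinch
      rw [smul_sub, Finset.smul_sum]
      simp only [mul_smul_comm, smul_mul_assoc]
    rw [h1, hnc, hnc]
    calc c * ‖nc_pinch p y - a‖ ≤ c * (ε * ‖y‖) := by gcongr
      _ = ε * (c * ‖y‖) := by ring

end Claimed.Agent.R302
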