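/-
R302 / TOP : the two frozen statements from `top_Core` (drafts of S0556.lean / S0557.lean).
-/
import Claimed.Prelude.Def_0484
import Claimed.Prelude.Def_0485
import Claimed.Agent.R302.Top.SoPaving
import Claimed.Agent.R302.Top.ApproxPaving

set_option autoImplicit false

open scoped InnerProductSpace ComplexOrder

-- with `ComplexOrder` in scope this instance hijacks `Inner ℂ H`
attribute [-instance] WithCStarModule.instCStarModuleComplex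

namespace Claimed.Agent.R302

universe u

theorem top_S0556 (hcore : ∀ ε : ℝ, 0 < ε → ε < 1 → top_Core.{u} ε (Nat.ceil (400000000 / ε ^ 2)))
    (ε : ℝ) (hε0 : 0 < ε) (hε1 : ε < 1)
    {H : Type u} [NormedAddCommGroup H] [InnerProductSpace ℂ H] [CompleteSpace H]
    (M : VonNeumannAlgebra H) (A : StarSubalgebra ℂ (H →L[ℂ] H)) (hA : Claims.C0484.IsMasaIn M A)
    (x : H →L[ℂ] H) (hxM : x ∈ M) (hx : IsSelfAdjoint x) :
    Claims.C0484.SoPavable M A x ε (Nat.ceil (400000000 / ε ^ 2) + Nat.ceil (4 / ε) + 1) := by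
  intro F δ hδ
  obtain ⟨p, hp, a, ha, has, han, q, hq, hqp, hqF, hqn⟩ :=
    top_so_paving hε0 hε1 (hcore ε hε0 hε1) M A hA x hxM hx F δ hδ
  exact ⟨p, hp, a, ha, has, han, q, hq, hqp, hqF, hqn⟩

theorem top_S0557 (hcore : ∀ ε : ℝ, 0 < ε → ε < 1 → top_Core.{u} ε (Nat.ceil (400000000 / ε ^ 2))) :
    ∃ C : ℝ, 0 < C ∧ ∀ ε : ℝ, 0 < ε → ε < 1 → ∃ R : ℕ, (R : ℝ) ≤ C * ε⁻¹ ^ 6 ∧
      ∀ (H : Type u) [NormedAddCommGroup H] [InnerProductSpace ℂ H] [CompleteSpace H]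
        (M : VonNeumannAlgebra H) (A : StarSubalgebra ℂ (H →L[ℂ] H)), Claims.C0485.IsMasaIn M A →
        ∀ x ∈ M, IsSelfAdjoint x → ∀ (F : Finset H) (δ : ℝ), 0 < δ →
          ∃ y ∈ M, IsSelfAdjoint y ∧ ‖y‖ ≤ 3 * ‖x‖ ∧ (∀ ξ ∈ F, ‖(y - x) ξ‖ < δ) ∧
            ∃ p : Fin R → (H →L[ℂ] H), Claims.C0485.IsPartitionOfUnityIn A p ∧
              ∃ a ∈ A, IsSelfAdjoint a ∧ ‖a‖ ≤ ‖y‖ ∧ ‖(∑ i, p i * y * p i) - a‖ ≤ ε * ‖y‖ := by
  refine ⟨6400000006, by norm_num, fun ε hε0 hε1 => ?_⟩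
  refine ⟨Nat.ceil (400000000 / (ε / 4) ^ 2) + Nat.ceil (4 / ε), ?_, ?_⟩
  · have h1 : (Nat.ceil (400000000 / (ε / 4) ^ 2) : ℝ) ≤ 400000000 / (ε / 4) ^ 2 + 1 :=
      (Nat.ceil_lt_add_one (by positivity)).le
    have h2 : (Nat.ceil (4 / ε) : ℝ) ≤ 4 / ε + 1 := (Nat.ceil_lt_add_one (by positivity)).le
    set t : ℝ := ε⁻¹ with ht
    have ht1 : 1 ≤ t := by
      rw [ht]; exact (one_le_inv₀ hε0).2 hε1.le
    have e1 : 400000000 / (ε / 4) ^ 2 = 6400000000 * t ^ 2 := by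
      rw [ht]; field_simp; ring
    have e2 : 4 / ε = 4 * t := by rw [ht]; field_simp
    have p1 : t ≤ t ^ 6 := by
      calc t = t ^ 1 := (pow_one t).symm
        _ ≤ t ^ 6 := pow_le_pow_right₀ ht1 (by norm_num)
    have p2 : t ^ 2 ≤ t ^ 6 := pow_le_pow_right₀ ht1 (by norm_num)
    have p0 : 1 ≤ t ^ 6 := one_le_pow₀ ht1
    push_cast
    rw [e1] at h1 ⊢
    rw [e2] at h2 ⊢
    linarith
  · intro H _ _ _ M A hA x hx hxs F δ hδ
    have hm : 4 / ε ≤ (Nat.ceil (4 / ε) : ℝ) := Nat.le_ceil _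
    obtain ⟨y, hyM, hys, hyn, hyF, p, hp, a, haA, has, han, hfin⟩ :=
      top_approx_paving hε0 hε1 (hcore (ε / 4) (by positivity) (by linarith)) hm M A hA x hx hxs F δ hδ
    exact ⟨y, hyM, hys, hyn, hyF, p, hp, a, haA, has, han, hfin⟩

end Claimed.Agent.R302
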